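import Claimed.Agent.R309.S2.Conv

/-!
# Row 309 / S2 / Cay: the triangle complex `cay1, cay0` of a generating set as an augmented partial resolution.
PACKAGE S2-Cay: SORRY FREE (helper211).

* `cvA_cay0`, `cvA_cay1`: unfold with `cvA_apply` (supports of `single s 1 - 1` etc.; easier: `cvA_mat_sub/add`, and a lemma for matrices with entries `single`).
* `cay_isPartRes`, with `π = 1`, `w = 1`:
  - `ex0` (connectivity): `single g 1 - 1 ∈ range (· ᵥ* cay0)` by `Subgroup.closure_induction` (`single (g s) 1 - 1 = single g 1 * (single s 1 - 1) + (single g 1 - 1)`),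
    and an `x` of augmentation `0` is `∑ x(g) (single g 1 - 1)`.
  - `ex1` (`H₁ = 0`) from `SC 𝔖 A` with `A := (𝔖.Gen → ZG Γ) ⧸ range (· ᵥ* cay1)` (as an additive group, `A : Type`): `c (g, s) := [single g 1 • e_s]` is a cocycle, so
    `c = grad F`; for `x` with `x ᵥ* cay0 = 0`: `[x] = ∑_{s,g} x_s(g) c (g,s) = ∑_{s,g} x_s(g) (F (g s) - F g) = ∑_v (x ᵥ* cay0)(v) • F v = 0`.
-/

set_option autoImplicit false
set_option linter.unusedSectionVars false

namespace Claimed.Agent.R309.S2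

open Claims.C0492 Matrix

variable {Γ : Type} [Group Γ] (𝔖 : GenSet Γ) {K : Type} [AddCommGroup K]

theorem cvA_eq {m n : Type} [Fintype n] (B : Matrix m n (ZG Γ)) (η : n × Γ → K) (i : m) (g : Γ) :
    cvA B η (i, g) = ∑ j, ra (zstar (B i j)) (fun x => η (j, x)) g := rfl

theorem ra_zstar_single (h : Γ) (u : Γ → K) (g : Γ) : ra (zstar (MonoidAlgebra.single h 1)) u g = u (g * h) := by
  rw [zstar_single, ra_single, inv_inv, one_smul]

theorem ra_zstar_one (u : Γ → K) (g : Γ) : ra (zstar (1 : ZG Γ)) u g = u g := by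
  rw [zstar_one, ra_one]

theorem cvA_cay0 (φ : Γ → K) : cvA (cay0 𝔖) (ofVert φ) = ofEdge (grad φ : 𝔖.Edge → K) := by
  funext ⟨s, g⟩
  rw [cvA_eq, Fintype.sum_unique]
  show ra (zstar (MonoidAlgebra.single s.1 1 - 1)) φ g = φ (g * s.1) - φ g
  rw [zstar_sub, ra_sub_left, Pi.sub_apply, ra_zstar_single, ra_zstar_one]

theorem sum_ra_ite {n : Type} [Fintype n] [DecidableEq n] (a : n) (X : ZG Γ) (u : n → Γ → K) (g : Γ) :
    ∑ s, ra (zstar (if s = a then X else 0)) (u s) g = ra (zstar X) (u a) g := by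
  rw [Finset.sum_eq_single a]
  · rw [if_pos rfl]
  · intro b _ hb
    rw [if_neg hb, zstar_zero, ra_zero_left]; rfl
  · simp

theorem cvA_cay1 (c : 𝔖.Edge → K) : cvA (cay1 𝔖) (ofEdge c) = ofTri (cobd c) := by
  funext ⟨t, g⟩
  rw [cvA_eq]
  have h1 : ∀ s : 𝔖.Gen, ra (zstar (cay1 𝔖 t s)) (fun x => ofEdge c (s, x)) g =
      ra (zstar (if s = t.1.1 then 1 else 0)) (fun x => c (x, s)) g
      + ra (zstar (if s = t.1.2 then MonoidAlgebra.single t.1.1.1 1 else 0)) (fun x => c (x, s)) g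
      - ra (zstar (if s = ⟨t.1.1.1 * t.1.2.1, t.2⟩ then 1 else 0)) (fun x => c (x, s)) g := by
    intro s
    show ra (zstar ((if s = t.1.1 then 1 else 0) + (if s = t.1.2 then MonoidAlgebra.single t.1.1.1 1 else 0)
      - (if s = ⟨t.1.1.1 * t.1.2.1, t.2⟩ then 1 else 0))) (fun x => c (x, s)) g = _
    rw [zstar_sub, zstar_add, ra_sub_left, ra_add_left]
    rfl
  rw [Finset.sum_congr rfl fun s _ => h1 s, Finset.sum_sub_distrib, Finset.sum_add_distrib,
    sum_ra_ite _ _ (fun s x => c (x, s)), sum_ra_ite _ _ (fun s x => c (x, s)),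
    sum_ra_ite _ _ (fun s x => c (x, s)), ra_zstar_one, ra_zstar_one, ra_zstar_single]
  rfl

theorem sum_ite_mul {n : Type} [Fintype n] [DecidableEq n] (a : n) (X : ZG Γ) (v : n → ZG Γ) :
    ∑ s, (if s = a then X else 0) * v s = X * v a := by
  rw [Finset.sum_eq_single a]
  · rw [if_pos rfl]
  · intro b _ hb
    rw [if_neg hb, zero_mul]
  · simp

theorem cay1_vecMul (t : 𝔖.Rel) (v : 𝔖.Gen → ZG Γ) :
    ∑ s, cay1 𝔖 t s * v s = v t.1.1 + MonoidAlgebra.single t.1.1.1 1 * v t.1.2 - v ⟨t.1.1.1 * t.1.2.1, t.2⟩ := by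
  have h1 : ∀ s : 𝔖.Gen, cay1 𝔖 t s * v s = (if s = t.1.1 then 1 else 0) * v s
      + (if s = t.1.2 then MonoidAlgebra.single t.1.1.1 1 else 0) * v s
      - (if s = ⟨t.1.1.1 * t.1.2.1, t.2⟩ then 1 else 0) * v s := by
    intro s
    rw [← add_mul, ← sub_mul]; rfl
  rw [Finset.sum_congr rfl fun s _ => h1 s, Finset.sum_sub_distrib, Finset.sum_add_distrib,
    sum_ite_mul, sum_ite_mul, sum_ite_mul, one_mul, one_mul]

theorem cay1_mul_cay0 : cay1 𝔖 * cay0 𝔖 = 0 := by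
  refine Matrix.ext fun t u => ?_
  rw [Matrix.mul_apply, cay1_vecMul 𝔖 t (fun s => cay0 𝔖 s u)]
  show (MonoidAlgebra.single t.1.1.1 1 - 1) + MonoidAlgebra.single t.1.1.1 1 * (MonoidAlgebra.single t.1.2.1 1 - 1)
    - (MonoidAlgebra.single (t.1.1.1 * t.1.2.1) 1 - 1) = (0 : ZG Γ)
  rw [mul_sub, MonoidAlgebra.single_mul_single, mul_one, mul_one]
  abel

variable {𝔖}

theorem isCocycle_iff (c : 𝔖.Edge → K) : IsCocycle c ↔ ∀ t, cobd c t = 0 := by
  constructor
  · rintro h ⟨⟨g, s₁, s₂⟩, h12⟩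
    exact sub_eq_zero.2 (h g s₁ s₂ h12)
  · intro h g s₁ s₂ h12
    exact sub_eq_zero.1 (h ⟨(g, s₁, s₂), h12⟩)

theorem exists_ofEdge (ζ : 𝔖.Gen × Γ → K) : ∃ c : 𝔖.Edge → K, ζ = ofEdge c := ⟨fun e => ζ (e.2, e.1), rfl⟩

theorem exists_ofVert (u : Unit × Γ → K) : ∃ φ : Γ → K, u = ofVert φ := ⟨fun g => u ((), g), rfl⟩

theorem FS_comp_bij {X Y : Type} (e : X → Y) (he : Function.Bijective e) (b : Y → K) :
    FS (fun x => b (e x)) ↔ (Function.support b).Finite := by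
  have h1 : Function.support (fun x => b (e x)) = e ⁻¹' Function.support b := rfl
  unfold FS
  rw [h1]
  constructor
  · intro h
    have := h.image e
    rwa [Set.image_preimage_eq _ he.2] at this
  · intro h
    exact h.preimage he.1.injOn

theorem ofEdge_FS {c : 𝔖.Edge → K} : FS (ofEdge c) ↔ (Function.support c).Finite :=
  FS_comp_bij (fun p : 𝔖.Gen × Γ => ((p.2, p.1) : 𝔖.Edge))
    ⟨fun p q h => by
      have h1 := congrArg Prod.fst h
      have h2 := congrArg Prod.snd h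
      exact Prod.ext h2 h1, fun e => ⟨(e.2, e.1), rfl⟩⟩ c

theorem ofVert_FS {φ : Γ → K} : FS (ofVert φ) ↔ (Function.support φ).Finite :=
  FS_comp_bij (fun p : Unit × Γ => p.2) ⟨fun _ _ h => Prod.ext rfl h, fun g => ⟨((), g), rfl⟩⟩ φ

/-- triangles as pairs (type, base point) -/
def triOf (p : 𝔖.Rel × Γ) : 𝔖.Tri := ⟨(p.2, p.1.1.1, p.1.1.2), p.1.2⟩

theorem triOf_bijective : Function.Bijective (triOf : 𝔖.Rel × Γ → 𝔖.Tri) := by
  constructor
  · rintro ⟨⟨⟨a, b⟩, h⟩, g⟩ ⟨⟨⟨a', b'⟩, h'⟩, g'⟩ heq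
    have h0 := congrArg Subtype.val heq
    simp only [triOf, Prod.mk.injEq] at h0
    obtain ⟨rfl, rfl, rfl⟩ := h0
    rfl
  · rintro ⟨⟨g, a, b⟩, h⟩
    exact ⟨(⟨(a, b), h⟩, g), rfl⟩

theorem ofTri_FS {b : 𝔖.Tri → K} : FS (ofTri b) ↔ (Function.support b).Finite :=
  FS_comp_bij triOf triOf_bijective b

theorem ofTri_injective : Function.Injective (ofTri : (𝔖.Tri → K) → 𝔖.Rel × Γ → K) := by
  intro b b' h
  funext t
  obtain ⟨p, rfl⟩ := triOf_bijective.2 t
  exact congrFun h p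

/-- connectivity of the Cayley graph -/
theorem grad_eq_zero {φ : Γ → K} (h : ∀ e : 𝔖.Edge, grad φ e = 0) (g : Γ) : φ g = φ 1 := by
  have key : ∀ x : Γ, ∀ y, φ (y * x) = φ y := by
    intro x
    have hx : x ∈ Subgroup.closure (𝔖.S : Set Γ) := by rw [𝔖.closure_eq]; trivial
    induction hx using Subgroup.closure_induction with
    | mem s hs => exact fun y => sub_eq_zero.1 (h (y, ⟨s, hs⟩))
    | one => intro y; rw [mul_one]
    | mul a b _ _ ha hb => intro y; rw [← mul_assoc, hb, ha]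
    | inv a _ ha => intro y; rw [← ha (y * a⁻¹), inv_mul_cancel_right]
  simpa using key g 1

variable (𝔖)

/-- the left ideal generated by the `s - 1` -/
noncomputable def cayI : Submodule (ZG Γ) (ZG Γ) :=
  LinearMap.range ((LinearMap.proj () : (Unit → ZG Γ) →ₗ[ZG Γ] ZG Γ) ∘ₗ (cay0 𝔖).vecMulLinear)

theorem mem_cayI {a : ZG Γ} : a ∈ cayI 𝔖 ↔ ∃ y : 𝔖.Gen → ZG Γ, (y ᵥ* cay0 𝔖) () = a := Iff.rfl

theorem single_sub_one_mem (g : Γ) : (MonoidAlgebra.single g 1 - 1 : ZG Γ) ∈ cayI 𝔖 := by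
  have hx : g ∈ Subgroup.closure (𝔖.S : Set Γ) := by rw [𝔖.closure_eq]; trivial
  induction hx using Subgroup.closure_induction with
  | mem s hs =>
    refine (mem_cayI 𝔖).2 ⟨Pi.single ⟨s, hs⟩ 1, ?_⟩
    rw [Matrix.single_one_vecMul]; rfl
  | one => rw [← MonoidAlgebra.one_def, sub_self]; exact zero_mem _
  | mul a b _ _ ha hb =>
    have : (MonoidAlgebra.single (a * b) 1 - 1 : ZG Γ) =
        (MonoidAlgebra.single a 1 : ZG Γ) • ((MonoidAlgebra.single b 1 : ZG Γ) - 1)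
          + ((MonoidAlgebra.single a 1 : ZG Γ) - 1) := by
      rw [smul_eq_mul, mul_sub, MonoidAlgebra.single_mul_single, mul_one, mul_one]; abel
    rw [this]
    exact add_mem (Submodule.smul_mem _ _ hb) ha
  | inv a _ ha =>
    have : (MonoidAlgebra.single a⁻¹ 1 - 1 : ZG Γ) =
        (-(MonoidAlgebra.single a⁻¹ 1 : ZG Γ)) • ((MonoidAlgebra.single a 1 : ZG Γ) - 1) := by
      rw [smul_eq_mul, mul_sub, neg_mul, MonoidAlgebra.single_mul_single, inv_mul_cancel, mul_one, mul_one,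
        ← MonoidAlgebra.one_def]; abel
    rw [this]
    exact Submodule.smul_mem _ _ ha

theorem sub_aug_mem (a : ZG Γ) : a - (augE 1 a) • (1 : ZG Γ) ∈ cayI 𝔖 := by
  induction a using MonoidAlgebra.induction_linear with
  | zero => simp
  | add a b ha hb =>
    have : a + b - (augE 1 (a + b)) • (1 : ZG Γ) = (a - (augE 1 a) • (1 : ZG Γ)) + (b - (augE 1 b) • (1 : ZG Γ)) := by
      rw [map_add, add_smul]; abel
    rw [this]
    exact add_mem ha hb
  | single g c =>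
    have : (MonoidAlgebra.single g c - (augE 1 (MonoidAlgebra.single g c)) • (1 : ZG Γ)) =
        c • (MonoidAlgebra.single g 1 - 1 : ZG Γ) := by
      rw [augE_single, smul_sub, MonoidAlgebra.smul_single]
      simp
    rw [this]
    exact zsmul_mem (single_sub_one_mem 𝔖 g) c

theorem cay_ex1 (h : ∀ (A : Type) [AddCommGroup A], SC 𝔖 A) (x : 𝔖.Gen → ZG Γ) (hx : x ᵥ* cay0 𝔖 = 0) :
    ∃ y, x = y ᵥ* cay1 𝔖 := by
  let B : Submodule (ZG Γ) (𝔖.Gen → ZG Γ) := LinearMap.range (cay1 𝔖).vecMulLinear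
  let c : 𝔖.Edge → (𝔖.Gen → ZG Γ) ⧸ B := fun e => B.mkQ (Pi.single e.2 (MonoidAlgebra.single e.1 1))
  have hc : IsCocycle c := by
    intro g s₁ s₂ h12
    rw [← sub_eq_zero]
    show B.mkQ _ + B.mkQ _ - B.mkQ _ = 0
    rw [← map_add, ← map_sub, Submodule.mkQ_apply, Submodule.Quotient.mk_eq_zero]
    have hrow : cay1 𝔖 ⟨(s₁, s₂), h12⟩ ∈ B :=
      ⟨Pi.single ⟨(s₁, s₂), h12⟩ 1, Matrix.single_one_vecMul _ _⟩
    have : (Pi.single s₁ (MonoidAlgebra.single g 1 : ZG Γ) + Pi.single s₂ (MonoidAlgebra.single (g * s₁.1) 1 : ZG Γ)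
        - Pi.single (⟨s₁.1 * s₂.1, h12⟩ : 𝔖.Gen) (MonoidAlgebra.single g 1 : ZG Γ) : 𝔖.Gen → ZG Γ) =
        (MonoidAlgebra.single g 1 : ZG Γ) • cay1 𝔖 ⟨(s₁, s₂), h12⟩ := by
      funext s
      simp only [Pi.add_apply, Pi.sub_apply, Pi.smul_apply, Pi.single_apply, smul_eq_mul, cay1, mul_sub, mul_add,
        mul_ite, mul_one, mul_zero, MonoidAlgebra.single_mul_single]
    rw [this]
    exact Submodule.smul_mem _ _ hrow
  obtain ⟨F, hF⟩ := h _ c hc
  let Ψ : ZG Γ →+ (𝔖.Gen → ZG Γ) ⧸ B :=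
    (Finsupp.liftAddHom (fun g => zmultiplesHom _ (F g))).comp MonoidAlgebra.coeffAddEquiv.toAddMonoidHom
  have hΨ : ∀ g n, Ψ (MonoidAlgebra.single g n) = n • F g := by
    intro g n
    show Finsupp.liftAddHom (fun g => zmultiplesHom _ (F g)) (Finsupp.single g n) = _
    rw [Finsupp.liftAddHom_apply_single]
    rfl
  have key : ∀ (s : 𝔖.Gen) (a : ZG Γ), B.mkQ (Pi.single s a) = Ψ (a * (MonoidAlgebra.single s.1 1 - 1)) := by
    intro s a
    induction a using MonoidAlgebra.induction_linear with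
    | zero => simp
    | add a b ha hb => rw [Pi.single_add, map_add, ha, hb, add_mul, map_add]
    | single g n =>
      rw [mul_sub, MonoidAlgebra.single_mul_single, mul_one, mul_one, map_sub, hΨ, hΨ, ← smul_sub]
      have h1 := hF (g, s)
      have h2 : (Pi.single s (MonoidAlgebra.single g n) : 𝔖.Gen → ZG Γ) =
          n • Pi.single s (MonoidAlgebra.single g 1) := by
        rw [← Pi.single_smul, MonoidAlgebra.smul_single]; simp
      rw [h2, map_zsmul]
      congr 1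
  have hx0 : B.mkQ x = 0 := by
    have h1 : x = ∑ s, Pi.single s (x s) := (Finset.univ_sum_single x).symm
    rw [h1, map_sum, Finset.sum_congr rfl fun s _ => key s (x s), ← map_sum]
    have h2 : ∑ s, x s * (MonoidAlgebra.single s.1 1 - 1 : ZG Γ) = (x ᵥ* cay0 𝔖) () := rfl
    rw [h2, hx]
    exact map_zero _
  rw [Submodule.mkQ_apply, Submodule.Quotient.mk_eq_zero] at hx0
  obtain ⟨y, hy⟩ := hx0
  exact ⟨y, hy.symm⟩

theorem cay_isPartRes (h : ∀ (A : Type) [AddCommGroup A], SC 𝔖 A) :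
    IsPartRes (augE 1) (cay0 𝔖) (cay1 𝔖) 1 (fun _ => 1) := by
  refine ⟨cay1_mul_cay0 𝔖, Matrix.one_mul _, Matrix.mul_one _, ?_, ?_, ?_, cay_ex1 𝔖 h, ?_⟩
  · intro x; rw [Matrix.vecMul_one]
  · intro y
    rw [Fintype.sum_unique, mul_one]
    show augE 1 (∑ s, y s * (MonoidAlgebra.single s.1 1 - 1 : ZG Γ)) = 0
    rw [map_sum]
    refine Finset.sum_eq_zero fun s _ => ?_
    rw [map_mul, map_sub, augE_single, map_one]
    simp
  · intro x _ h0
    rw [Fintype.sum_unique, mul_one] at h0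
    have h1 := sub_aug_mem 𝔖 (x default)
    rw [h0, zero_smul, sub_zero] at h1
    obtain ⟨y, hy⟩ := (mem_cayI 𝔖).1 h1
    exact ⟨y, funext fun u => hy.symm⟩
  · exact ⟨fun _ => 1, Matrix.vecMul_one _, by simp⟩

end Claimed.Agent.R309.S2
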