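import Claimed.Agent.R309.S2.Conv

/-!
# Row 309 / S2 / Cmp: the comparison theorem in degrees `≤ 2`, in matrix language over an arbitrary ring.
PACKAGE S2-Cmp (helper211): SORRY FREE (uses only augE_one_eq of Conv.lean).

Only tool: ROW LIFTING.  If every row of `X` satisfies the hypothesis of an exactness statement `∀ x, P x → ∃ y, x = y ᵥ* d`, then `X = Y * d`
(choose `Y` row by row).
Construction of `cmp_exists` (P = unprimed, Q = primed; `aug x = ∑ α (x i) * w i`, `aug (a • x) = α a * aug x`):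
* `f0`: row `i` := `(w i : Λ) • x₁'`, `x₁'` from `hQ.surj`.  Then `f0 * π' = f0`, `aug' (x ᵥ* f0) = aug x`.
* `f1`: rows of `d0 * f0` are `π'`-fixed with `aug' = aug (row of d0) = 0`: `hQ.ex0`.      `f2`: rows of `d1 * f1` are killed by `d0'`: `hQ.ex1`.
* `g0, g1, g2`: symmetric.
* `h0`: rows of `π - f0 * g0` are `π`-fixed (`g0 * π = g0`, `π * π = π`) with `aug = 0`: `hP.ex0` gives `π - f0 * g0 = h0 * d0`.
* `h1`: `(1 - f1 * g1 - d0 * h0) * d0 = d0 - d0 * f0 * g0 - d0 * (π - f0 * g0) = d0 - d0 * π = 0`: `hP.ex1`.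
-/

set_option autoImplicit false
set_option linter.unusedSectionVars false

namespace Claimed.Agent.R309.S2

open Claims.C0492 Matrix

section Abstract

variable {Λ : Type} [Ring Λ] {α : Λ →+* ℤ}
variable {n0 n1 n2 n0' n1' n2' : Type} [Fintype n0] [Fintype n1] [Fintype n2]
  [Fintype n0'] [Fintype n1'] [Fintype n2'] [DecidableEq n0] [DecidableEq n1] [DecidableEq n2]
  [DecidableEq n0'] [DecidableEq n1'] [DecidableEq n2']
variable {d0 : Matrix n1 n0 Λ} {d1 : Matrix n2 n1 Λ} {π : Matrix n0 n0 Λ} {w : n0 → ℤ}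
variable {d0' : Matrix n1' n0' Λ} {d1' : Matrix n2' n1' Λ} {π' : Matrix n0' n0' Λ} {w' : n0' → ℤ}

/-- row lifting -/
theorem row_lift {a b c : Type} [Fintype b] (d : Matrix b c Λ) (X : Matrix a c Λ)
    (h : ∀ i, ∃ y : b → Λ, X i = y ᵥ* d) : ∃ Y : Matrix a b Λ, X = Y * d := by
  choose Y hY using h
  refine ⟨Matrix.of Y, ?_⟩
  ext i j
  have := congrFun (hY i) j
  rw [this]
  rfl

/-- the augmentation `x ↦ ∑ α (x i) * w i` -/
def pAug {n : Type} [Fintype n] (α : Λ →+* ℤ) (w : n → ℤ) (x : n → Λ) : ℤ := ∑ i, α (x i) * w i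

theorem pAug_sub {n : Type} [Fintype n] (α : Λ →+* ℤ) (w : n → ℤ) (x y : n → Λ) :
    pAug α w (x - y) = pAug α w x - pAug α w y := by
  unfold pAug
  rw [← Finset.sum_sub_distrib]
  exact Finset.sum_congr rfl fun i _ => by rw [Pi.sub_apply, map_sub, sub_mul]

theorem pAug_vecMul {n n' : Type} [Fintype n] [Fintype n'] (α : Λ →+* ℤ) (w : n → ℤ) (w' : n' → ℤ)
    (F : Matrix n n' Λ) (hF : ∀ i, pAug α w' (F i) = w i) (x : n → Λ) :
    pAug α w' (x ᵥ* F) = pAug α w x := by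
  unfold pAug at hF ⊢
  have h1 : ∀ j, α ((x ᵥ* F) j) * w' j = ∑ i, α (x i) * (α (F i j) * w' j) := by
    intro j
    rw [Matrix.vecMul, dotProduct, map_sum, Finset.sum_mul]
    exact Finset.sum_congr rfl fun i _ => by rw [map_mul, mul_assoc]
  rw [Finset.sum_congr rfl fun j _ => h1 j, Finset.sum_comm]
  exact Finset.sum_congr rfl fun i _ => by rw [← Finset.mul_sum, hF i]

theorem row_mul {a b c : Type} [Fintype b] (X : Matrix a b Λ) (d : Matrix b c Λ) (i : a) :
    (X * d) i = X i ᵥ* d := rfl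

/-- one direction of the comparison: a chain map -/
theorem cmp_half (hP : IsPartRes α d0 d1 π w) (hQ : IsPartRes α d0' d1' π' w') :
    ∃ (f0 : Matrix n0 n0' Λ) (f1 : Matrix n1 n1' Λ) (f2 : Matrix n2 n2' Λ),
      f0 * π' = f0 ∧ (∀ x, pAug α w' (x ᵥ* f0) = pAug α w x) ∧ d0 * f0 = f1 * d0' ∧ d1 * f1 = f2 * d1' := by
  obtain ⟨x₁, hx₁π, hx₁⟩ := hQ.surj
  let f0 : Matrix n0 n0' Λ := fun i => (w i : Λ) • x₁
  have hf0π : f0 * π' = f0 := by
    funext i
    rw [row_mul]
    show ((w i : Λ) • x₁) ᵥ* π' = (w i : Λ) • x₁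
    rw [Matrix.smul_vecMul, hx₁π]
  have hf0row : ∀ i, pAug α w' (f0 i) = w i := by
    intro i
    show ∑ j, α (((w i : Λ) • x₁) j) * w' j = w i
    have : ∀ j, α (((w i : Λ) • x₁) j) * w' j = w i * (α (x₁ j) * w' j) := by
      intro j
      rw [Pi.smul_apply, smul_eq_mul, map_mul, map_intCast, mul_assoc]
      rfl
    rw [Finset.sum_congr rfl fun j _ => this j, ← Finset.mul_sum, hx₁, mul_one]
  have hf0aug : ∀ x, pAug α w' (x ᵥ* f0) = pAug α w x := pAug_vecMul α w w' f0 hf0row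
  obtain ⟨f1, hf1⟩ := row_lift d0' (d0 * f0) (fun i => by
    apply hQ.ex0
    · rw [← row_mul, Matrix.mul_assoc, hf0π]
    · have h1 := hf0aug (d0 i)
      have h2 := hP.aug_d0 (Pi.single i 1)
      rw [Matrix.single_one_vecMul] at h2
      rw [row_mul]
      exact h1.trans h2)
  obtain ⟨f2, hf2⟩ := row_lift d1' (d1 * f1) (fun i => by
    apply hQ.ex1
    rw [← row_mul, Matrix.mul_assoc, ← hf1, ← Matrix.mul_assoc, hP.d1d0, Matrix.zero_mul]
    rfl)
  exact ⟨f0, f1, f2, hf0π, hf0aug, hf1, hf2⟩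

theorem cmp_exists (hP : IsPartRes α d0 d1 π w) (hQ : IsPartRes α d0' d1' π' w') :
    Nonempty (Cmp d0 d1 d0' d1') := by
  obtain ⟨f0, f1, f2, hf0π, hf0aug, hf1, hf2⟩ := cmp_half hP hQ
  obtain ⟨g0, g1, g2, hg0π, hg0aug, hg1, hg2⟩ := cmp_half hQ hP
  obtain ⟨h0, hh0⟩ := row_lift d0 (π - f0 * g0) (fun i => by
    apply hP.ex0
    · rw [← row_mul, Matrix.sub_mul, hP.ππ, Matrix.mul_assoc, hg0π]
    · have e1 : (π - f0 * g0) i = π i - (f0 * g0) i := rfl
      have e2 : pAug α w (π i) = pAug α w (Pi.single i 1) := by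
        have := hP.aug_π (Pi.single i 1)
        rw [Matrix.single_one_vecMul] at this
        exact this
      have e3 : pAug α w ((f0 * g0) i) = pAug α w (Pi.single i 1) := by
        rw [row_mul, hg0aug]
        have := hf0aug (Pi.single i 1)
        rw [Matrix.single_one_vecMul] at this
        exact this
      show pAug α w ((π - f0 * g0) i) = 0
      rw [e1, pAug_sub, e2, e3, sub_self])
  obtain ⟨h1, hh1⟩ := row_lift d1 (1 - f1 * g1 - d0 * h0) (fun i => by
    apply hP.ex1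
    rw [← row_mul]
    have : (1 - f1 * g1 - d0 * h0) * d0 = 0 := by
      rw [Matrix.sub_mul, Matrix.sub_mul, Matrix.one_mul, Matrix.mul_assoc f1, ← hg1, ← Matrix.mul_assoc f1,
        ← hf1, Matrix.mul_assoc d0 h0, ← hh0, Matrix.mul_sub, hP.d0π, Matrix.mul_assoc]
      abel
    rw [this]
    rfl)
  exact ⟨⟨f0, f1, f2, g0, g1, g2, h0, h1, hf1, hf2, hg1, hg2, by
    rw [← hh1]; abel⟩⟩

/-- consequence of the identities in degree 2 -/
theorem Cmp.deg2 (c : Cmp d0 d1 d0' d1') (h : d1 * d0 = 0) : (1 - c.f2 * c.g2 - d1 * c.h1) * d1 = 0 := by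
  have h1 : c.h1 * d1 = 1 - c.f1 * c.g1 - d0 * c.h0 := by
    rw [c.hom]; abel
  rw [Matrix.sub_mul, Matrix.sub_mul, Matrix.one_mul, Matrix.mul_assoc c.f2, ← c.cg1, ← Matrix.mul_assoc c.f2,
    ← c.cf1, Matrix.mul_assoc d1 c.h1, h1, Matrix.mul_sub, Matrix.mul_sub, Matrix.mul_one, ← Matrix.mul_assoc d1 d0,
    h, Matrix.zero_mul, Matrix.mul_assoc]
  abel

theorem map_vecMul_map {a b : Type} [Fintype a] (θ : Λ →+* Λ) (x : a → Λ) (M : Matrix a b Λ) :
    (fun j => θ ((x ᵥ* M) j)) = (fun i => θ (x i)) ᵥ* M.map θ := by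
  funext j
  simp only [Matrix.vecMul, dotProduct, map_sum, map_mul, Matrix.map_apply]

/-- twisting by an involutive ring automorphism -/
theorem IsPartRes.twist (hP : IsPartRes α d0 d1 π w) (θ : Λ →+* Λ) (hθ : ∀ a, θ (θ a) = a) :
    IsPartRes (α.comp θ) (d0.map θ) (d1.map θ) (π.map θ) w := by
  have hmm : ∀ {a b : Type} (M : Matrix a b Λ), (M.map θ).map θ = M := by
    intro a b M; ext i j; exact hθ _
  have hinj : ∀ {a : Type} {x y : a → Λ}, (fun i => θ (x i)) = (fun i => θ (y i)) → x = y := by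
    intro a x y h
    funext i
    have := congrArg θ (congrFun h i)
    simpa [hθ] using this
  have key : ∀ {a b : Type} [Fintype a] (x : a → Λ) (M : Matrix a b Λ),
      (fun j => θ ((x ᵥ* M.map θ) j)) = (fun i => θ (x i)) ᵥ* M := by
    intro a b _ x M
    rw [map_vecMul_map, hmm]
  refine ⟨?_, ?_, ?_, ?_, ?_, ?_, ?_, ?_⟩
  · rw [← Matrix.map_mul, hP.d1d0]; ext i j; simp
  · rw [← Matrix.map_mul, hP.ππ]
  · rw [← Matrix.map_mul, hP.d0π]
  · intro x
    have := hP.aug_π (fun i => θ (x i))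
    rw [← key] at this
    exact this
  · intro y
    have := hP.aug_d0 (fun i => θ (y i))
    rw [← key] at this
    exact this
  · intro x hx h0
    obtain ⟨y, hy⟩ := hP.ex0 (fun i => θ (x i)) (by rw [← key, hx]) h0
    refine ⟨fun i => θ (y i), hinj ?_⟩
    rw [key, hy]
    congr 1
    funext i
    exact (hθ _).symm
  · intro x hx
    obtain ⟨y, hy⟩ := hP.ex1 (fun i => θ (x i)) (by rw [← key, hx]; funext i; simp)
    refine ⟨fun i => θ (y i), hinj ?_⟩
    rw [key, hy]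
    congr 1
    funext i
    exact (hθ _).symm
  · obtain ⟨x, hx, h1⟩ := hP.surj
    refine ⟨fun i => θ (x i), hinj ?_, ?_⟩
    · rw [key]
      have : (fun i => θ (θ (x i))) = x := funext fun i => hθ _
      rw [this, hx]
    · simpa [hθ] using h1

end Abstract

section Res

variable {Γ : Type} [Group Γ]

theorem res_DD (R : FiniteFreeResolution Γ) (k : ℕ) : R.D (k + 1) * R.D k = 0 := by
  funext i
  rw [row_mul]
  exact (R.exact_succ k _).2 ⟨Pi.single i 1, (Matrix.single_one_vecMul i _).symm⟩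

/-- the frozen resolution is an augmented partial resolution -/
theorem res_isPartRes (R : FiniteFreeResolution Γ) :
    IsPartRes (augE 1) (R.D 0) (R.D 1) 1 (fun _ => 1) := by
  have haug : ∀ x : Fin (R.r 0) → ZG Γ,
      ∑ i, augE 1 (x i) * (1 : ℤ) = ∑ i, groupRingAugmentation (x i) := fun x =>
    Finset.sum_congr rfl fun i _ => by rw [mul_one, augE_one_eq]
  refine ⟨res_DD R 0, Matrix.one_mul _, Matrix.mul_one _, ?_, ?_, ?_, ?_, ?_⟩
  · intro x; rw [Matrix.vecMul_one]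
  · intro y
    rw [haug]
    exact (R.exact_zero _).2 ⟨y, rfl⟩
  · intro x _ h0
    rw [haug] at h0
    exact (R.exact_zero _).1 h0
  · intro x hx
    exact (R.exact_succ 0 _).1 hx
  · obtain ⟨x, hx⟩ := R.aug_surjective 1
    exact ⟨x, Matrix.vecMul_one _, by rw [haug]; exact hx⟩

end Res

end Claimed.Agent.R309.S2
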