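import Claimed.Agent.R309.S2.Defs

/-!
# Row 309 / S2 / Coh: comparison of the frozen hypotheses on `groupCohomology (Rep.leftRegular ℤ Γ) i` with the dual complex of `R`.
PACKAGE S2-Coh (owner: helper211): SORRY FREE.
The categorical part is done over a general commutative ring `k` (`FRes k G`): in `Rep ℤ Γ` instance search finds `AddCommGroup.toIntModule` instead of
`X.hV2` and nothing elaborates.

Plan (template: `Mathlib/RepresentationTheory/Homological/FiniteCyclic.lean` + `GroupCohomology/FiniteCyclic.lean`).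
* `X k := Rep.free ℤ Γ (Fin (R.r k))`, `d k := Rep.freeLift (fun i => ∑ j, single j (R.D k i j))`, `ChainComplex.of`.
* `π : X 0 ⟶ trivial`, quasi-isomorphism from `exact_zero`, `exact_succ`, `aug_surjective`  => `P : ProjectiveResolution (Rep.trivial ℤ Γ ℤ)`.
* `groupCohomologyIso A n P`, `Rep.freeLiftLEquiv` : `Hom (X k, leftRegular) ≃ (Fin (R.r k) → ZG Γ)`, differential `y ↦ D k *ᵥ y`.
* exactness / `ker/im` from `ShortComplex.moduleCat_exact_iff`, `moduleCatHomologyIso`.
-/

set_option autoImplicit false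
set_option linter.unusedSectionVars false

namespace Claimed.Agent.R309.S2

open Claims.C0492 Matrix CategoryTheory

/-- free resolutions over a general commutative ring `k` (to avoid the `ℤ`-module diamond in `Rep ℤ Γ`) -/
structure FRes (k G : Type) [CommRing k] [Group G] where
  r : ℕ → ℕ
  D : ∀ n : ℕ, Matrix (Fin (r (n + 1))) (Fin (r n)) (MonoidAlgebra k G)
  aug_surjective : ∀ n : k, ∃ x : Fin (r 0) → MonoidAlgebra k G, ∑ i, (x i).coeff.sum (fun _ c => c) = n
  exact_zero : ∀ x : Fin (r 0) → MonoidAlgebra k G,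
    (∑ i, (x i).coeff.sum (fun _ c => c) = 0) ↔ ∃ y, x = Matrix.vecMul y (D 0)
  exact_succ : ∀ n, ∀ x : Fin (r (n + 1)) → MonoidAlgebra k G,
    Matrix.vecMul x (D n) = 0 ↔ ∃ y, x = Matrix.vecMul y (D (n + 1))

variable {k G : Type} [CommRing k] [Group G] (R : FRes k G)

/-- the free representation in degree `n` -/
noncomputable abbrev cX (n : ℕ) : Rep k G := Rep.free k G (Fin (R.r n))

/-- vectors as finitely supported functions -/
noncomputable abbrev toF {n : ℕ} (x : Fin n → MonoidAlgebra k G) : Fin n →₀ MonoidAlgebra k G :=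
  Finsupp.equivFunOnFinite.symm x

noncomputable def cd (n : ℕ) : cX R (n + 1) ⟶ cX R n := Rep.freeLift k G (cX R n) (fun i => toF (R.D n i))

theorem cd_hom (n : ℕ) : (cd R n).hom =
    Representation.freeLift (Representation.free k G (Fin (R.r n))) (fun i => toF (R.D n i)) := rfl

theorem leftRegular_apply (g : G) (a : MonoidAlgebra k G) :
    Representation.leftRegular k G g a = MonoidAlgebra.single g 1 * a := by
  induction a using MonoidAlgebra.induction_linear with
  | zero => simp
  | add a b ha hb => rw [map_add, ha, hb, mul_add]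
  | single h c => simp [MonoidAlgebra.single_mul_single]

theorem free_apply_apply {α : Type} (g : G) (v : α →₀ MonoidAlgebra k G) (j : α) :
    (Representation.free k G α g v) j = MonoidAlgebra.single g 1 * v j := by
  induction v using Finsupp.induction_linear with
  | zero => simp
  | add x y hx hy => rw [map_add, Finsupp.add_apply, hx, hy, Finsupp.add_apply, mul_add]
  | single i a =>
    rw [Representation.finsupp_single, leftRegular_apply]
    by_cases h : i = j
    · subst h; simp
    · simp [h]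

theorem toF_add {n : ℕ} (x y : Fin n → MonoidAlgebra k G) : toF (x + y) = toF x + toF y := by
  ext j : 1; rfl

theorem toF_zero {n : ℕ} : toF (0 : Fin n → MonoidAlgebra k G) = 0 := by
  ext j : 1; rfl

theorem coe_toF {n : ℕ} (x : Fin n → MonoidAlgebra k G) :
    ((toF x : Fin n →₀ MonoidAlgebra k G) : Fin n → MonoidAlgebra k G) = x := rfl

theorem toF_coe {n : ℕ} (x : Fin n →₀ MonoidAlgebra k G) : toF (x : Fin n → MonoidAlgebra k G) = x := by
  ext j : 1; rfl

theorem cd_apply (n : ℕ) (x : Fin (R.r (n + 1)) →₀ MonoidAlgebra k G) :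
    (cd R n).hom x = toF ((x : Fin (R.r (n + 1)) → MonoidAlgebra k G) ᵥ* R.D n) := by
  rw [cd_hom]
  induction x using Finsupp.induction_linear with
  | zero => 
    rw [map_zero, Finsupp.coe_zero, Matrix.zero_vecMul, toF_zero]
  | add x y hx hy => 
    rw [map_add, hx, hy, Finsupp.coe_add, Matrix.add_vecMul, toF_add]
  | single i a =>
    induction a using MonoidAlgebra.induction_linear with
    | zero => rw [Finsupp.single_zero, map_zero, Finsupp.coe_zero, Matrix.zero_vecMul, toF_zero]
    | add a b ha hb => 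
      rw [Finsupp.single_add, map_add, ha, hb, Finsupp.coe_add, Matrix.add_vecMul, toF_add]
    | single g c =>
      rw [Representation.freeLift_single_single]
      ext j : 1
      rw [Finsupp.smul_apply, free_apply_apply]
      show c • (MonoidAlgebra.single g 1 * R.D n i j) =
        ((Finsupp.single i (MonoidAlgebra.single g c) : Fin (R.r (n + 1)) → MonoidAlgebra k G) ᵥ* R.D n) j
      rw [Matrix.vecMul, dotProduct, Finset.sum_eq_single i]
      · rw [Finsupp.single_eq_same, ← smul_mul_assoc, MonoidAlgebra.smul_single]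
        simp
      · intro b _ hb
        rw [Finsupp.single_eq_of_ne hb, zero_mul]
      · simp

theorem cd_comp (n : ℕ) : cd R (n + 1) ≫ cd R n = 0 := by
  apply Rep.hom_ext
  apply Representation.IntertwiningMap.ext
  apply LinearMap.ext
  intro x
  show (cd R n).hom ((cd R (n + 1)).hom x) = 0
  rw [cd_apply, cd_apply, coe_toF, (R.exact_succ n _).2 ⟨_, rfl⟩, toF_zero]

/-- the chain complex of representations -/
noncomputable def cC : ChainComplex (Rep k G) ℕ := ChainComplex.of (cX R) (cd R) (cd_comp R)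

theorem cC_d (n : ℕ) : (cC R).d (n + 1) n = cd R n := ChainComplex.of_d (cX R) (cd R) n

theorem cC_X (n : ℕ) : (cC R).X n = cX R n := rfl

theorem cC_d_apply (n : ℕ) (x : Fin (R.r (n + 1)) →₀ MonoidAlgebra k G) :
    ((cC R).d (n + 1) n).hom x = toF ((x : Fin (R.r (n + 1)) → MonoidAlgebra k G) ᵥ* R.D n) := by
  rw [cC_d]; exact cd_apply R n x

/-- the augmentation -/
noncomputable def cε : cX R 0 ⟶ Rep.trivial k G k := Rep.freeLift k G (Rep.trivial k G k) (fun _ => (1 : k))

theorem cε_hom : (cε R).hom =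
    Representation.freeLift (Representation.trivial k G k) (fun _ : Fin (R.r 0) => (1 : k)) := rfl

/-- the augmentation of the group ring -/
noncomputable def kaug (a : MonoidAlgebra k G) : k := a.coeff.sum (fun _ c => c)

theorem kaug_add (a b : MonoidAlgebra k G) : kaug (a + b) = kaug a + kaug b := by
  unfold kaug
  rw [MonoidAlgebra.coeff_add]
  exact Finsupp.sum_add_index' (fun _ => rfl) (fun _ _ _ => rfl)

theorem kaug_single (g : G) (c : k) : kaug (MonoidAlgebra.single g c) = c := by
  unfold kaug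
  rw [MonoidAlgebra.coeff_single]
  exact Finsupp.sum_single_index rfl

theorem kaug_zero : kaug (0 : MonoidAlgebra k G) = 0 := by
  unfold kaug
  simp

theorem cε_apply (x : Fin (R.r 0) →₀ MonoidAlgebra k G) : (cε R).hom x = ∑ i, kaug (x i) := by
  rw [cε_hom]
  induction x using Finsupp.induction_linear with
  | zero => simp [kaug_zero]
  | add x y hx hy => 
    rw [map_add, hx, hy, ← Finset.sum_add_distrib]
    exact Finset.sum_congr rfl fun i _ => by rw [Finsupp.add_apply, kaug_add]
  | single i a =>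
    induction a using MonoidAlgebra.induction_linear with
    | zero => simp [kaug_zero]
    | add a b ha hb => 
      rw [Finsupp.single_add, map_add, ha, hb, ← Finset.sum_add_distrib]
      exact Finset.sum_congr rfl fun i _ => by rw [Finsupp.add_apply, kaug_add]
    | single g c =>
      rw [Representation.freeLift_single_single, Finset.sum_eq_single i]
      · rw [Finsupp.single_eq_same, kaug_single]; simp
      · intro b _ hb
        rw [Finsupp.single_eq_of_ne hb, kaug_zero]
      · simp

theorem cd_cε : cd R 0 ≫ cε R = 0 := by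
  apply Rep.hom_ext
  apply Representation.IntertwiningMap.ext
  apply LinearMap.ext
  intro x
  show (cε R).hom ((cd R 0).hom x) = 0
  rw [cd_apply, cε_apply]
  exact (R.exact_zero _).2 ⟨_, rfl⟩

noncomputable def cπ : cC R ⟶ (ChainComplex.single₀ (Rep k G)).obj (Rep.trivial k G k) :=
  ((cC R).toSingle₀Equiv _).symm ⟨cε R, by
    rw [cC_d R 0]; exact cd_cε R⟩

set_option backward.defeqAttrib.useBackward true in
set_option backward.isDefEq.respectTransparency false in
theorem cπ_quasiIso : QuasiIso (cπ R) where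
  quasiIsoAt m := by
    induction m with
    | zero =>
      simp only [cπ]
      rw [ChainComplex.quasiIsoAt₀_iff, ShortComplex.quasiIso_iff_of_zeros' _ rfl rfl rfl]
      constructor
      · apply (forget₂ _ (ModuleCat k)).reflects_exact_of_faithful
        rw [ShortComplex.moduleCat_exact_iff]
        intro x hx
        change (Fin (R.r 0) →₀ MonoidAlgebra k G) at x
        have hx' : (cε R).hom x = 0 := by
          simp only [ChainComplex.toSingle₀Equiv] at hx
          exact hx
        rw [cε_apply] at hx'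
        obtain ⟨y, hy⟩ := (R.exact_zero _).1 hx'
        refine ⟨toF y, ?_⟩
        show ((cC R).d 1 0).hom (toF y) = x
        rw [cC_d_apply, coe_toF, ← hy, toF_coe]
      · rw [Rep.epi_iff_surjective]
        intro x
        change k at x
        obtain ⟨y, hy⟩ := R.aug_surjective x
        refine ⟨toF y, ?_⟩
        have : (cε R).hom (toF y) = x := by rw [cε_apply]; exact hy
        simp only [ChainComplex.toSingle₀Equiv]
        exact this
    | succ m _ =>
      rw [quasiIsoAt_iff_exactAt' (hL := ChainComplex.exactAt_succ_single_obj ..),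
          HomologicalComplex.exactAt_iff' _ (m + 2) (m + 1) m (by simp) (by simp)]
      apply (forget₂ _ (ModuleCat k)).reflects_exact_of_faithful
      rw [ShortComplex.moduleCat_exact_iff]
      intro x hx
      change (Fin (R.r (m + 1)) →₀ MonoidAlgebra k G) at x
      have hx' : ((cC R).d (m + 1) m).hom x = 0 := hx
      rw [cC_d_apply] at hx'
      have h0 : (x : Fin (R.r (m + 1)) → MonoidAlgebra k G) ᵥ* R.D m = 0 := by
        have := congrArg (fun v : Fin (R.r m) →₀ MonoidAlgebra k G => (v : Fin (R.r m) → MonoidAlgebra k G)) hx'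
        simpa using this
      obtain ⟨y, hy⟩ := (R.exact_succ m _).1 h0
      refine ⟨toF y, ?_⟩
      show ((cC R).d (m + 2) (m + 1)).hom (toF y) = x
      rw [cC_d_apply, coe_toF, ← hy, toF_coe]


/-- the projective resolution -/
noncomputable def cP : ProjectiveResolution (Rep.trivial k G k) where
  complex := cC R
  projective n := inferInstanceAs <| Projective (Rep.free k G (Fin (R.r n)))
  π := cπ R
  quasiIso := cπ_quasiIso R

/-- the cochain complex `Hom (C, k[G])` -/
noncomputable abbrev cK : CochainComplex (ModuleCat k) ℕ := (cC R).linearYonedaObj k (Rep.leftRegular k G)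


theorem freeLift_leftRegular_apply {m : ℕ} (y : Fin m → MonoidAlgebra k G) (v : Fin m →₀ MonoidAlgebra k G) :
    Representation.freeLift (Representation.leftRegular k G) y v = ∑ j, v j * y j := by
  induction v using Finsupp.induction_linear with
  | zero => simp
  | add x x' hx hx' => 
    rw [map_add, hx, hx', ← Finset.sum_add_distrib]
    exact Finset.sum_congr rfl fun i _ => by rw [Finsupp.add_apply, add_mul]
  | single i a =>
    induction a using MonoidAlgebra.induction_linear with
    | zero => simp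
    | add a b ha hb => 
      rw [Finsupp.single_add, map_add, ha, hb, ← Finset.sum_add_distrib]
      exact Finset.sum_congr rfl fun i _ => by rw [Finsupp.add_apply, add_mul]
    | single g c =>
      rw [Representation.freeLift_single_single, Finset.sum_eq_single i]
      · rw [Finsupp.single_eq_same, leftRegular_apply, ← smul_mul_assoc, MonoidAlgebra.smul_single]
        simp
      · intro b _ hb
        rw [Finsupp.single_eq_of_ne hb, zero_mul]
      · simp


/-- the morphism attached to a column vector -/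
noncomputable def cF (n : ℕ) (y : Fin (R.r n) → MonoidAlgebra k G) : cX R n ⟶ Rep.leftRegular k G :=
  Rep.freeLift k G (Rep.leftRegular k G) y

theorem cF_hom (n : ℕ) (y : Fin (R.r n) → MonoidAlgebra k G) :
    (cF R n y).hom = Representation.freeLift (Representation.leftRegular k G) y := rfl

theorem cF_apply (n : ℕ) (y : Fin (R.r n) → MonoidAlgebra k G) (v : Fin (R.r n) →₀ MonoidAlgebra k G) :
    (cF R n y).hom v = ∑ j, v j * y j := by
  rw [cF_hom, freeLift_leftRegular_apply]

theorem cF_basis (n : ℕ) (y : Fin (R.r n) → MonoidAlgebra k G) (i : Fin (R.r n)) :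
    (cF R n y).hom (Finsupp.single i (MonoidAlgebra.single 1 1)) = y i := by
  rw [cF_apply, Finset.sum_eq_single i]
  · rw [Finsupp.single_eq_same, ← MonoidAlgebra.one_def, one_mul]
  · intro b _ hb
    rw [Finsupp.single_eq_of_ne hb, zero_mul]
  · simp

theorem cF_surj (n : ℕ) (f : cX R n ⟶ Rep.leftRegular k G) : ∃ y, f = cF R n y := by
  refine ⟨fun i => f.hom (Finsupp.single i (MonoidAlgebra.single 1 1)), ?_⟩
  apply Rep.free_ext
  intro i
  rw [cF_basis]

theorem cF_inj (n : ℕ) {y y' : Fin (R.r n) → MonoidAlgebra k G} (h : cF R n y = cF R n y') : y = y' := by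
  funext i
  rw [← cF_basis R n y i, ← cF_basis R n y' i, h]

theorem cF_add (n : ℕ) (y y' : Fin (R.r n) → MonoidAlgebra k G) :
    cF R n (y + y') = cF R n y + cF R n y' := by
  apply Rep.free_ext
  intro i
  rw [cF_basis]
  show _ = (cF R n y).hom _ + (cF R n y').hom _
  rw [cF_basis, cF_basis]; rfl

theorem cF_zero (n : ℕ) : cF R n 0 = 0 := by
  apply Rep.free_ext
  intro i
  rw [cF_basis]; rfl

theorem cd_cF (n : ℕ) (y : Fin (R.r n) → MonoidAlgebra k G) :
    cd R n ≫ cF R n y = cF R (n + 1) (R.D n *ᵥ y) := by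
  apply Rep.free_ext
  intro i
  rw [cF_basis]
  show (cF R n y).hom ((cd R n).hom _) = _
  rw [cd_apply, cF_apply]
  simp only [coe_toF]
  have : ((Finsupp.single i (MonoidAlgebra.single 1 1) : Fin (R.r (n + 1)) →₀ MonoidAlgebra k G) :
      Fin (R.r (n + 1)) → MonoidAlgebra k G) ᵥ* R.D n = R.D n i := by
    funext j
    rw [Matrix.vecMul, dotProduct, Finset.sum_eq_single i]
    · rw [Finsupp.single_eq_same, ← MonoidAlgebra.one_def, one_mul]
    · intro b _ hb
      rw [Finsupp.single_eq_of_ne hb, zero_mul]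
    · simp
  rw [this]
  rfl


/-- `y ↦ D *ᵥ y` as a `k`-linear map -/
noncomputable def mvL {m n : ℕ} (D : Matrix (Fin m) (Fin n) (MonoidAlgebra k G)) :
    (Fin n → MonoidAlgebra k G) →ₗ[k] (Fin m → MonoidAlgebra k G) where
  toFun y := D *ᵥ y
  map_add' := Matrix.mulVec_add D
  map_smul' c y := Matrix.mulVec_smul D c y

theorem mvL_apply {m n : ℕ} (D : Matrix (Fin m) (Fin n) (MonoidAlgebra k G)) (y : Fin n → MonoidAlgebra k G) :
    mvL D y = D *ᵥ y := rfl

theorem DD_mulVec (n : ℕ) (y : Fin (R.r n) → MonoidAlgebra k G) : R.D (n + 1) *ᵥ (R.D n *ᵥ y) = 0 := by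
  apply cF_inj R (n + 2)
  rw [← cd_cF, ← cd_cF, ← Category.assoc, cd_comp, Limits.zero_comp, cF_zero]

/-- the explicit short complex of column vectors -/
noncomputable def cT (n : ℕ) : ShortComplex (ModuleCat k) :=
  ShortComplex.mk (ModuleCat.ofHom (mvL (R.D n))) (ModuleCat.ofHom (mvL (R.D (n + 1)))) (by
    apply ModuleCat.hom_ext
    apply LinearMap.ext
    intro y
    exact DD_mulVec R n y)

/-- evaluation on the basis -/
noncomputable abbrev cE (n : ℕ) := Rep.freeLiftLEquiv k G (Fin (R.r n)) (Rep.leftRegular k G)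

theorem cE_cF (n : ℕ) (y : Fin (R.r n) → MonoidAlgebra k G) : cE R n (cF R n y) = y := by
  funext i
  exact cF_basis R n y i

theorem cK_d_apply (n : ℕ) (f : cX R n ⟶ Rep.leftRegular k G) :
    ((cK R).d n (n + 1)).hom f = (cd R n ≫ f : cX R (n + 1) ⟶ Rep.leftRegular k G) := by
  rw [ChainComplex.linearYonedaObj_d]
  show (cC R).d (n + 1) n ≫ f = _
  rw [cC_d]
  rfl

set_option backward.defeqAttrib.useBackward true in
set_option backward.isDefEq.respectTransparency false in
/-- `Hom (C, k[G])` in degrees `n, n+1, n+2` is the complex of column vectors -/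
noncomputable def cSIso (n : ℕ) : (cK R).sc' n (n + 1) (n + 2) ≅ cT R n :=
  ShortComplex.isoMk (cE R n).toModuleIso (cE R (n + 1)).toModuleIso (cE R (n + 2)).toModuleIso
    (by
      apply ModuleCat.hom_ext
      apply LinearMap.ext
      intro (f : cX R n ⟶ _)
      obtain ⟨y, rfl⟩ := cF_surj R n f
      show R.D n *ᵥ (cE R n (cF R n y)) = cE R (n + 1) (((cK R).d n (n + 1)).hom (cF R n y))
      rw [cK_d_apply, cd_cF, cE_cF, cE_cF])
    (by
      apply ModuleCat.hom_ext
      apply LinearMap.ext
      intro (f : cX R (n + 1) ⟶ _)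
      obtain ⟨y, rfl⟩ := cF_surj R (n + 1) f
      show R.D (n + 1) *ᵥ (cE R (n + 1) (cF R (n + 1) y)) =
        cE R (n + 2) (((cK R).d (n + 1) (n + 2)).hom (cF R (n + 1) y))
      rw [cK_d_apply, cd_cF, cE_cF, cE_cF])


/-- `H^{n+1}(G, k[G])` as `ker / im` -/
noncomputable def cΘ (n : ℕ) :
    groupCohomology (Rep.leftRegular k G) (n + 1) ≅ (cT R n).moduleCatLeftHomologyData.H :=
  groupCohomologyIso (Rep.leftRegular k G) (n + 1) (cP R) ≪≫
    ShortComplex.homologyMapIso ((cK R).isoSc' n (n + 1) (n + 2) (by simp) (by simp)) ≪≫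
    ShortComplex.homologyMapIso (cSIso R n) ≪≫ (cT R n).moduleCatHomologyIso

theorem coh_succ (n : ℕ) : ∃ Φ : (Fin (R.r (n + 1)) → MonoidAlgebra k G) → groupCohomology (Rep.leftRegular k G) (n + 1),
    (∀ y y', R.D (n + 1) *ᵥ y = 0 → R.D (n + 1) *ᵥ y' = 0 → Φ (y + y') = Φ y + Φ y') ∧
    (∀ c, ∃ y, R.D (n + 1) *ᵥ y = 0 ∧ Φ y = c) ∧
    (∀ y, R.D (n + 1) *ᵥ y = 0 → (Φ y = 0 ↔ ∃ z, y = R.D n *ᵥ z)) := by
  classical
  let Θ : groupCohomology (Rep.leftRegular k G) (n + 1) ≃ₗ[k]
      (LinearMap.ker (mvL (R.D (n + 1))) ⧸ LinearMap.range (cT R n).moduleCatToCycles) :=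
    (cΘ R n).toLinearEquiv
  have hker : ∀ y, R.D (n + 1) *ᵥ y = 0 → y ∈ LinearMap.ker (mvL (R.D (n + 1))) := fun y hy => hy
  let Φ : (Fin (R.r (n + 1)) → MonoidAlgebra k G) → groupCohomology (Rep.leftRegular k G) (n + 1) :=
    fun y => if h : R.D (n + 1) *ᵥ y = 0 then
      Θ.symm ((LinearMap.range (cT R n).moduleCatToCycles).mkQ ⟨y, hker y h⟩) else 0
  have hΦ : ∀ y (h : R.D (n + 1) *ᵥ y = 0), Φ y =
      Θ.symm ((LinearMap.range (cT R n).moduleCatToCycles).mkQ ⟨y, hker y h⟩) := fun y h => dif_pos h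
  refine ⟨Φ, ?_, ?_, ?_⟩
  · intro y y' hy hy'
    have hyy : R.D (n + 1) *ᵥ (y + y') = 0 := by rw [Matrix.mulVec_add, hy, hy', add_zero]
    rw [hΦ _ hy, hΦ _ hy', hΦ _ hyy, ← map_add, ← map_add]
    rfl
  · intro c
    obtain ⟨⟨y, hy⟩, hq⟩ := (LinearMap.range (cT R n).moduleCatToCycles).mkQ_surjective (Θ c)
    refine ⟨y, hy, ?_⟩
    rw [hΦ _ hy, hq, LinearEquiv.symm_apply_apply]
  · intro y hy
    rw [hΦ _ hy, LinearEquiv.map_eq_zero_iff, Submodule.mkQ_apply, Submodule.Quotient.mk_eq_zero,
      LinearMap.mem_range]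
    constructor
    · rintro ⟨z, hz⟩
      exact ⟨z, (congrArg Subtype.val hz).symm⟩
    · rintro ⟨z, rfl⟩
      exact ⟨z, Subtype.ext rfl⟩


theorem coh_zero (h : Subsingleton (groupCohomology (Rep.leftRegular k G) 0))
    (y : Fin (R.r 0) → MonoidAlgebra k G) (hy : R.D 0 *ᵥ y = 0) : y = 0 := by
  have h1 : Limits.IsZero (groupCohomology (Rep.leftRegular k G) 0) := ModuleCat.isZero_of_subsingleton _
  have h2 : Limits.IsZero ((cK R).homology 0) :=
    h1.of_iso (groupCohomologyIso (Rep.leftRegular k G) 0 (cP R)).symm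
  rw [← HomologicalComplex.exactAt_iff_isZero_homology,
    HomologicalComplex.exactAt_iff' _ 0 0 1 (by simp) (by simp), ShortComplex.moduleCat_exact_iff] at h2
  have h3 : ((cK R).d 0 1).hom (cF R 0 y) = 0 := by
    rw [cK_d_apply, cd_cF, hy, cF_zero]; rfl
  obtain ⟨x, hx⟩ := h2 (cF R 0 y) h3
  have h4 : (cK R).d 0 0 = 0 := (cK R).shape _ _ (by simp)
  have h5 : ((cK R).d 0 0).hom x = cF R 0 y := hx
  rw [h4] at h5
  apply cF_inj R 0
  rw [cF_zero, ← h5]
  rfl


/-- the frozen resolution as an `FRes` -/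
def toFRes {Γ : Type} [Group Γ] (R : FiniteFreeResolution Γ) : FRes ℤ Γ where
  r := R.r
  D := R.D
  aug_surjective := R.aug_surjective
  exact_zero := R.exact_zero
  exact_succ := R.exact_succ

theorem s2_pd4 (Γ : Type) [Group Γ]
    (hPD : ∀ i : ℕ, i ≠ 4 → Subsingleton (groupCohomology (Rep.leftRegular ℤ Γ) i))
    (hPD4 : Nonempty (groupCohomology (Rep.leftRegular ℤ Γ) 4 ≃+ ℤ))
    (R : FiniteFreeResolution Γ) : PD4 R where
  ex0 := fun y hy => coh_zero (toFRes R) (hPD 0 (by norm_num)) y hy
  ex := by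
    intro n hn y hy
    obtain ⟨Φ, -, -, h3⟩ := coh_succ (toFRes R) n
    have := hPD (n + 1) (by omega)
    exact (h3 y hy).1 (Subsingleton.elim _ _)
  ex4 := by
    obtain ⟨Φ, h1, h2, h3⟩ := coh_succ (toFRes R) 3
    obtain ⟨e⟩ := hPD4
    refine ⟨fun y => e (Φ y), ?_, ?_, ?_⟩
    · intro y y' hy hy'
      exact (congrArg e (h1 y y' hy hy')).trans (map_add e _ _)
    · obtain ⟨y, hy, hc⟩ := h2 (e.symm 1)
      exact ⟨y, hy, by show e (Φ y) = 1; rw [hc, AddEquiv.apply_symm_apply]⟩
    · intro y hy
      exact Iff.trans e.map_eq_zero_iff (h3 y hy)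

end Claimed.Agent.R309.S2
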