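import Claimed.Agent.R309.S2.Defs

/-!
# Row 309 / S2 / Conv: calculus of the involution, the twist and the convolution operators `cvR`, `cvA`.
PACKAGES:  S2-Conv-alg (sections Ring, Op, Fn, Twist, Pair; ~700 lines, elementary: `MonoidAlgebra.induction_linear`, `Finsupp.sum`),
           S2-Conv-l2 (section L2; ~500 lines: boundedness on `ℓ²`: `u ↦ u(· h⁻¹)` is an isometry of `lp`, `cvR B` is a finite integer
           combination of such maps composed with coordinate maps; adjointness by reindexing `g ↦ g h`).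
Fill the sorries in place, keep the statements.  Hint for `cvR_mul`: prove `ra (a * b) u = ra b (ra a u)`, `ra (a + b) u = ra a u + ra b u`,
`ra a (u + v) = ..`, `ra (single h c) u g = c • u (g * h⁻¹)` first.
-/

set_option autoImplicit false
set_option linter.unusedSectionVars false

namespace Claimed.Agent.R309.S2

open Claims.C0492 Matrix
open scoped InnerProductSpace

variable {Γ : Type} [Group Γ] {K K' : Type} [AddCommGroup K] [AddCommGroup K']
variable {l m n : Type} [Fintype l] [Fintype m] [Fintype n]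

section Ring

theorem zstar_single (g : Γ) (c : ℤ) : zstar (MonoidAlgebra.single g c) = MonoidAlgebra.single g⁻¹ c :=
  MonoidAlgebra.mapDomain_single
theorem zstar_zero : zstar (0 : ZG Γ) = 0 := MonoidAlgebra.mapDomain_zero _
theorem zstar_add (a b : ZG Γ) : zstar (a + b) = zstar a + zstar b := MonoidAlgebra.mapDomain_add _ _ _

/-- `zstar` as an additive homomorphism -/
noncomputable def zstarHom : ZG Γ →+ ZG Γ where
  toFun := zstar
  map_zero' := zstar_zero
  map_add' := zstar_add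

theorem zstarHom_apply (a : ZG Γ) : zstarHom a = zstar a := rfl

theorem zstar_coeff (a : ZG Γ) (g : Γ) : (zstar a).coeff g = a.coeff g⁻¹ := by
  classical
  induction a using MonoidAlgebra.induction_linear with
  | zero => simp [zstar_zero]
  | add x y hx hy =>
    rw [zstar_add, MonoidAlgebra.coeff_add, MonoidAlgebra.coeff_add, Finsupp.add_apply, Finsupp.add_apply, hx, hy]
  | single h r =>
    rw [zstar_single, MonoidAlgebra.coeff_single, MonoidAlgebra.coeff_single, Finsupp.single_apply,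
      Finsupp.single_apply]
    by_cases hh : h⁻¹ = g
    · rw [if_pos hh, if_pos (by rw [← hh, inv_inv])]
    · rw [if_neg hh, if_neg (fun h' => hh (by rw [h', inv_inv]))]

theorem zg_ext {a b : ZG Γ} (h : ∀ g, a.coeff g = b.coeff g) : a = b :=
  MonoidAlgebra.coeff_injective (Finsupp.ext h)

theorem zstar_zstar (a : ZG Γ) : zstar (zstar a) = a :=
  zg_ext fun g => by rw [zstar_coeff, zstar_coeff, inv_inv]
theorem zstar_one : zstar (1 : ZG Γ) = 1 := by
  rw [MonoidAlgebra.one_def, zstar_single, inv_one]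
theorem zstar_sub (a b : ZG Γ) : zstar (a - b) = zstar a - zstar b := map_sub zstarHom a b
theorem zstar_neg (a : ZG Γ) : zstar (-a) = -zstar a := map_neg zstarHom a
theorem zstar_sum {ι : Type} (s : Finset ι) (f : ι → ZG Γ) : zstar (∑ i ∈ s, f i) = ∑ i ∈ s, zstar (f i) :=
  map_sum zstarHom f s
theorem zstar_mul (a b : ZG Γ) : zstar (a * b) = zstar b * zstar a := by
  induction a using MonoidAlgebra.induction_linear with
  | zero => simp [zstar_zero]
  | add x y hx hy => rw [add_mul, zstar_add, zstar_add, mul_add, hx, hy]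
  | single g c =>
    induction b using MonoidAlgebra.induction_linear with
    | zero => simp [zstar_zero]
    | add x y hx hy => rw [mul_add, zstar_add, zstar_add, add_mul, hx, hy]
    | single h d =>
      rw [MonoidAlgebra.single_mul_single, zstar_single, zstar_single, zstar_single,
        MonoidAlgebra.single_mul_single, _root_.mul_inv_rev, mul_comm c d]
theorem zstar_eq_zero {a : ZG Γ} : zstar a = 0 ↔ a = 0 := by
  constructor
  · intro h
    rw [← zstar_zstar a, h, zstar_zero]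
  · rintro rfl
    exact zstar_zero

theorem adj_apply (B : Matrix m n (ZG Γ)) (j : n) (i : m) : adj B j i = zstar (B i j) := rfl

theorem adj_adj (B : Matrix m n (ZG Γ)) : adj (adj B) = B :=
  Matrix.ext fun i j => zstar_zstar (B i j)
theorem adj_zero : adj (0 : Matrix m n (ZG Γ)) = 0 :=
  Matrix.ext fun _ _ => zstar_zero
theorem adj_one [DecidableEq n] : adj (1 : Matrix n n (ZG Γ)) = 1 := by
  refine Matrix.ext fun i j => ?_
  rw [adj_apply, Matrix.one_apply, Matrix.one_apply]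
  by_cases h : i = j
  · rw [if_pos h, if_pos h.symm, zstar_one]
  · rw [if_neg h, if_neg (fun h' => h h'.symm), zstar_zero]
theorem adj_add (A B : Matrix m n (ZG Γ)) : adj (A + B) = adj A + adj B :=
  Matrix.ext fun i j => zstar_add (A j i) (B j i)
theorem adj_sub (A B : Matrix m n (ZG Γ)) : adj (A - B) = adj A - adj B :=
  Matrix.ext fun i j => zstar_sub (A j i) (B j i)
theorem adj_mul (A : Matrix l m (ZG Γ)) (B : Matrix m n (ZG Γ)) : adj (A * B) = adj B * adj A := by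
  refine Matrix.ext fun i j => ?_
  rw [adj_apply, Matrix.mul_apply, Matrix.mul_apply, zstar_sum]
  exact Finset.sum_congr rfl fun k _ => zstar_mul _ _

/-- rows of `adj B` versus columns of `B` -/
theorem zstar_vecMul_adj (x : n → ZG Γ) (B : Matrix m n (ZG Γ)) :
    (fun i => zstar ((x ᵥ* adj B) i)) = B *ᵥ (fun j => zstar (x j)) := by
  funext i
  simp only [Matrix.vecMul, Matrix.mulVec, dotProduct]
  rw [zstar_sum]
  refine Finset.sum_congr rfl fun j _ => ?_
  rw [zstar_mul, adj_apply, zstar_zstar]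

theorem augE_single (ε : Γ →* ℤˣ) (g : Γ) (c : ℤ) : augE ε (MonoidAlgebra.single g c) = c * ((ε g : ℤˣ) : ℤ) := by
  unfold augE
  simp [MonoidAlgebra.lift_single]
theorem augE_apply (ε : Γ →* ℤˣ) (a : ZG Γ) : augE ε a = a.coeff.sum fun g c => c * ((ε g : ℤˣ) : ℤ) := by
  induction a using MonoidAlgebra.induction_linear with
  | zero => simp
  | add x y hx hy =>
    rw [map_add, hx, hy, MonoidAlgebra.coeff_add, Finsupp.sum_add_index' (by simp) (by intros; ring)]
  | single g c =>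
    rw [augE_single, MonoidAlgebra.coeff_single, Finsupp.sum_single_index (by simp)]
theorem augE_one_eq (a : ZG Γ) : augE 1 a = groupRingAugmentation a := by
  rw [augE_apply]
  simp [groupRingAugmentation]
theorem twE_single (ε : Γ →* ℤˣ) (g : Γ) (c : ℤ) :
    twE ε (MonoidAlgebra.single g c) = MonoidAlgebra.single g (c * ((ε g : ℤˣ) : ℤ)) := by
  unfold twE
  simp [MonoidAlgebra.lift_single, MonoidAlgebra.smul_single]
theorem twE_coeff (ε : Γ →* ℤˣ) (a : ZG Γ) (g : Γ) : (twE ε a).coeff g = ((ε g : ℤˣ) : ℤ) * a.coeff g := by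
  classical
  induction a using MonoidAlgebra.induction_linear with
  | zero => simp
  | add x y hx hy =>
    rw [map_add, MonoidAlgebra.coeff_add, MonoidAlgebra.coeff_add, Finsupp.add_apply, Finsupp.add_apply, hx, hy,
      mul_add]
  | single h c =>
    rw [twE_single, MonoidAlgebra.coeff_single, MonoidAlgebra.coeff_single, Finsupp.single_apply,
      Finsupp.single_apply]
    by_cases hh : h = g
    · rw [if_pos hh, if_pos hh, hh, mul_comm]
    · rw [if_neg hh, if_neg hh, mul_zero]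
theorem twE_twE (ε : Γ →* ℤˣ) (a : ZG Γ) : twE ε (twE ε a) = a :=
  zg_ext fun g => by rw [twE_coeff, twE_coeff, ← mul_assoc, Int.units_coe_mul_self, one_mul]
theorem augE_twE (ε : Γ →* ℤˣ) (a : ZG Γ) : augE 1 (twE ε a) = augE ε a := by
  induction a using MonoidAlgebra.induction_linear with
  | zero => simp
  | add x y hx hy => rw [map_add, map_add, map_add, hx, hy]
  | single g c => rw [twE_single, augE_single, augE_single]; simp
theorem augE_comp_twE (ε : Γ →* ℤˣ) : (augE 1).comp (twE ε) = augE ε :=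
  RingHom.ext fun a => augE_twE ε a
theorem zstar_twE (ε : Γ →* ℤˣ) (a : ZG Γ) : zstar (twE ε a) = twE ε (zstar a) :=
  zg_ext fun g => by rw [zstar_coeff, twE_coeff, twE_coeff, zstar_coeff, map_inv, Int.units_inv_eq_self]
theorem adj_map_twE (ε : Γ →* ℤˣ) (B : Matrix m n (ZG Γ)) : adj (B.map (twE ε)) = (adj B).map (twE ε) :=
  Matrix.ext fun i j => zstar_twE ε (B j i)
/-- `ℤ[Γ]` has no 2-torsion -/
theorem zg_two_mul_eq_zero {a : ZG Γ} (h : 2 * a = 0) : a = 0 := by
  refine zg_ext fun g => ?_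
  have h1 := congrArg (fun x : ZG Γ => x.coeff g) h
  simp only [two_mul, MonoidAlgebra.coeff_add, Finsupp.add_apply, MonoidAlgebra.coeff_zero,
    Finsupp.zero_apply] at h1
  rw [MonoidAlgebra.coeff_zero, Finsupp.zero_apply]
  omega

end Ring

section Op

theorem ra_apply (a : ZG Γ) (u : Γ → K) (g : Γ) : ra a u g = a.coeff.sum fun h c => c • u (g * h⁻¹) := rfl

theorem ra_single (h : Γ) (c : ℤ) (u : Γ → K) (g : Γ) : ra (MonoidAlgebra.single h c) u g = c • u (g * h⁻¹) := by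
  rw [ra_apply, MonoidAlgebra.coeff_single, Finsupp.sum_single_index (by simp)]

theorem ra_zero_left (u : Γ → K) : ra (0 : ZG Γ) u = 0 := by
  funext g
  simp [ra_apply]

theorem ra_add_left (a b : ZG Γ) (u : Γ → K) : ra (a + b) u = ra a u + ra b u := by
  funext g
  rw [Pi.add_apply, ra_apply, ra_apply, ra_apply, MonoidAlgebra.coeff_add,
    Finsupp.sum_add_index' (by simp) (by intros; exact add_smul _ _ _)]

theorem ra_zero_right (a : ZG Γ) : ra a (0 : Γ → K) = 0 := by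
  funext g
  simp [ra_apply]

theorem ra_add_right (a : ZG Γ) (u v : Γ → K) : ra a (u + v) = ra a u + ra a v := by
  funext g
  rw [Pi.add_apply, ra_apply, ra_apply, ra_apply, ← Finsupp.sum_add]
  simp only [Pi.add_apply, smul_add]

/-- `ra` as a biadditive map -/
noncomputable def raH : ZG Γ →+ (Γ → K) →+ (Γ → K) :=
  AddMonoidHom.mk' (fun a => AddMonoidHom.mk' (ra a) (ra_add_right a)) fun a b =>
    AddMonoidHom.ext fun u => ra_add_left a b u

theorem raH_apply (a : ZG Γ) (u : Γ → K) : raH a u = ra a u := rfl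

theorem ra_neg_left (a : ZG Γ) (u : Γ → K) : ra (-a) u = -ra a u := by
  rw [← raH_apply, map_neg]; rfl
theorem ra_sub_left (a b : ZG Γ) (u : Γ → K) : ra (a - b) u = ra a u - ra b u := by
  rw [← raH_apply, map_sub]; rfl
theorem ra_neg_right (a : ZG Γ) (u : Γ → K) : ra a (-u) = -ra a u := by
  rw [← raH_apply, map_neg]; rfl
theorem ra_sub_right (a : ZG Γ) (u v : Γ → K) : ra a (u - v) = ra a u - ra a v := by
  rw [← raH_apply, map_sub]; rfl
theorem ra_sum_left {ι : Type} (s : Finset ι) (f : ι → ZG Γ) (u : Γ → K) :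
    ra (∑ i ∈ s, f i) u = ∑ i ∈ s, ra (f i) u := by
  rw [← raH_apply, map_sum, AddMonoidHom.finsetSum_apply]; rfl
theorem ra_sum_right {ι : Type} (a : ZG Γ) (s : Finset ι) (f : ι → Γ → K) :
    ra a (∑ i ∈ s, f i) = ∑ i ∈ s, ra a (f i) := by
  rw [← raH_apply, map_sum]; rfl

theorem ra_one (u : Γ → K) : ra (1 : ZG Γ) u = u := by
  funext g
  rw [MonoidAlgebra.one_def, ra_single, inv_one, mul_one, one_smul]

theorem ra_mul (a b : ZG Γ) (u : Γ → K) : ra (a * b) u = ra b (ra a u) := by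
  induction a using MonoidAlgebra.induction_linear with
  | zero => rw [zero_mul, ra_zero_left, ra_zero_right]
  | add x y hx hy => rw [add_mul, ra_add_left, ra_add_left, ra_add_right, hx, hy]
  | single g c =>
    induction b using MonoidAlgebra.induction_linear with
    | zero => rw [mul_zero, ra_zero_left, ra_zero_left]
    | add x y hx hy => rw [mul_add, ra_add_left, ra_add_left, hx, hy]
    | single h d =>
      funext x
      rw [MonoidAlgebra.single_mul_single, ra_single, ra_single, ra_single, _root_.mul_inv_rev, mul_assoc,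
        smul_smul, mul_comm c d]

theorem ra_zstar (a : ZG Γ) (u : Γ → K) (g : Γ) : ra (zstar a) u g = a.coeff.sum fun h c => c • u (g * h) := by
  induction a using MonoidAlgebra.induction_linear with
  | zero => simp [zstar_zero, ra_zero_left]
  | add x y hx hy =>
    rw [zstar_add, ra_add_left, Pi.add_apply, hx, hy, MonoidAlgebra.coeff_add,
      Finsupp.sum_add_index' (by simp) (by intros; exact add_smul _ _ _)]
  | single h c =>
    rw [zstar_single, ra_single, inv_inv, MonoidAlgebra.coeff_single, Finsupp.sum_single_index (by simp)]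

theorem cvR_eq (B : Matrix m n (ZG Γ)) (ξ : m × Γ → K) (p : n × Γ) :
    cvR B ξ p = ∑ i, ra (B i p.1) (fun g => ξ (i, g)) p.2 := rfl

theorem cvR_apply (B : Matrix m n (ZG Γ)) (ξ : m × Γ → K) (j : n) (g : Γ) :
    cvR B ξ (j, g) = ∑ i, ∑ h ∈ (B i j).coeff.support, (B i j).coeff h • ξ (i, g * h⁻¹) := rfl
theorem cvA_apply (B : Matrix m n (ZG Γ)) (η : n × Γ → K) (i : m) (g : Γ) :
    cvA B η (i, g) = ∑ j, ∑ h ∈ (B i j).coeff.support, (B i j).coeff h • η (j, g * h) := by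
  unfold cvA
  rw [cvR_eq]
  refine Finset.sum_congr rfl fun j _ => ?_
  rw [adj_apply, ra_zstar]
  rfl

theorem rightMulL2_eq {a b : ℕ} (B : Matrix (Fin a) (Fin b) (ZG Γ)) (ξ : Fin a × Γ → ℂ) :
    rightMulL2 B ξ = cvR B ξ := by
  funext p
  obtain ⟨j, g⟩ := p
  rw [cvR_apply]
  unfold rightMulL2
  refine Finset.sum_congr rfl fun i _ => Finset.sum_congr rfl fun h _ => ?_
  rw [zsmul_eq_mul, mul_comm]
theorem rightMulAdjL2_eq {a b : ℕ} (B : Matrix (Fin a) (Fin b) (ZG Γ)) (η : Fin b × Γ → ℂ) :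
    rightMulAdjL2 B η = cvA B η := by
  funext p
  obtain ⟨i, g⟩ := p
  rw [cvA_apply]
  unfold rightMulAdjL2
  refine Finset.sum_congr rfl fun j _ => Finset.sum_congr rfl fun h _ => ?_
  rw [zsmul_eq_mul, mul_comm]

theorem cvR_adj (B : Matrix m n (ZG Γ)) (η : n × Γ → K) : cvR (adj B) η = cvA B η := rfl
theorem cvA_adj (B : Matrix m n (ZG Γ)) (ξ : m × Γ → K) : cvA (adj B) ξ = cvR B ξ := by
  unfold cvA
  rw [adj_adj]

theorem cvR_mat_zero (ξ : m × Γ → K) : cvR (0 : Matrix m n (ZG Γ)) ξ = 0 := by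
  funext p
  rw [cvR_eq]
  simp [ra_zero_left]
theorem cvR_mat_one [DecidableEq m] (ξ : m × Γ → K) : cvR (1 : Matrix m m (ZG Γ)) ξ = ξ := by
  funext p
  rw [cvR_eq, Finset.sum_eq_single p.1]
  · rw [Matrix.one_apply_eq, ra_one]
  · intro i _ hi
    rw [Matrix.one_apply_ne hi, ra_zero_left]
    rfl
  · intro h
    exact absurd (Finset.mem_univ _) h
theorem cvR_mat_add (A B : Matrix m n (ZG Γ)) (ξ : m × Γ → K) : cvR (A + B) ξ = cvR A ξ + cvR B ξ := by
  funext p
  rw [Pi.add_apply, cvR_eq, cvR_eq, cvR_eq, ← Finset.sum_add_distrib]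
  refine Finset.sum_congr rfl fun i _ => ?_
  rw [Matrix.add_apply, ra_add_left]
  rfl
theorem cvR_mat_sub (A B : Matrix m n (ZG Γ)) (ξ : m × Γ → K) : cvR (A - B) ξ = cvR A ξ - cvR B ξ := by
  funext p
  rw [Pi.sub_apply, cvR_eq, cvR_eq, cvR_eq, ← Finset.sum_sub_distrib]
  refine Finset.sum_congr rfl fun i _ => ?_
  rw [Matrix.sub_apply, ra_sub_left]
  rfl
theorem cvR_mul (A : Matrix l m (ZG Γ)) (B : Matrix m n (ZG Γ)) (ξ : l × Γ → K) :
    cvR (A * B) ξ = cvR B (cvR A ξ) := by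
  funext p
  rw [cvR_eq, cvR_eq]
  have h1 : ∀ j : m, (fun g => cvR A ξ (j, g)) = ∑ i, ra (A i j) (fun g => ξ (i, g)) := by
    intro j
    funext g
    rw [cvR_eq, Finset.sum_apply]
  simp only [h1, ra_sum_right, Finset.sum_apply, Matrix.mul_apply, ra_sum_left, ra_mul]
  exact Finset.sum_comm
theorem cvR_zero (B : Matrix m n (ZG Γ)) : cvR B (0 : m × Γ → K) = 0 := by
  funext p
  rw [cvR_eq]
  refine Finset.sum_eq_zero fun i _ => ?_
  have : (fun g => (0 : m × Γ → K) (i, g)) = 0 := rfl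
  rw [this, ra_zero_right]
  rfl
theorem cvR_add (B : Matrix m n (ZG Γ)) (ξ ξ' : m × Γ → K) : cvR B (ξ + ξ') = cvR B ξ + cvR B ξ' := by
  funext p
  rw [Pi.add_apply, cvR_eq, cvR_eq, cvR_eq, ← Finset.sum_add_distrib]
  refine Finset.sum_congr rfl fun i _ => ?_
  have : (fun g => (ξ + ξ') (i, g)) = (fun g => ξ (i, g)) + fun g => ξ' (i, g) := rfl
  rw [this, ra_add_right]
  rfl
theorem cvR_neg (B : Matrix m n (ZG Γ)) (ξ : m × Γ → K) : cvR B (-ξ) = -cvR B ξ := by
  have h := cvR_add B ξ (-ξ)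
  rw [add_neg_cancel, cvR_zero] at h
  exact (neg_eq_of_add_eq_zero_right h.symm).symm
theorem cvR_sub (B : Matrix m n (ZG Γ)) (ξ ξ' : m × Γ → K) : cvR B (ξ - ξ') = cvR B ξ - cvR B ξ' := by
  rw [sub_eq_add_neg, cvR_add, cvR_neg, ← sub_eq_add_neg]

theorem cvA_mat_zero (η : n × Γ → K) : cvA (0 : Matrix m n (ZG Γ)) η = 0 := by
  unfold cvA
  rw [adj_zero, cvR_mat_zero]
theorem cvA_mat_one [DecidableEq m] (ξ : m × Γ → K) : cvA (1 : Matrix m m (ZG Γ)) ξ = ξ := by
  unfold cvA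
  rw [adj_one, cvR_mat_one]
theorem cvA_mat_add (A B : Matrix m n (ZG Γ)) (η : n × Γ → K) : cvA (A + B) η = cvA A η + cvA B η := by
  unfold cvA
  rw [adj_add, cvR_mat_add]
theorem cvA_mat_sub (A B : Matrix m n (ZG Γ)) (η : n × Γ → K) : cvA (A - B) η = cvA A η - cvA B η := by
  unfold cvA
  rw [adj_sub, cvR_mat_sub]
theorem cvA_mul (A : Matrix l m (ZG Γ)) (B : Matrix m n (ZG Γ)) (η : n × Γ → K) :
    cvA (A * B) η = cvA A (cvA B η) := by
  unfold cvA
  rw [adj_mul, cvR_mul]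
theorem cvA_zero (B : Matrix m n (ZG Γ)) : cvA B (0 : n × Γ → K) = 0 := cvR_zero _
theorem cvA_add (B : Matrix m n (ZG Γ)) (η η' : n × Γ → K) : cvA B (η + η') = cvA B η + cvA B η' := cvR_add _ _ _
theorem cvA_sub (B : Matrix m n (ZG Γ)) (η η' : n × Γ → K) : cvA B (η - η') = cvA B η - cvA B η' := cvR_sub _ _ _
theorem cvA_neg (B : Matrix m n (ZG Γ)) (η : n × Γ → K) : cvA B (-η) = -cvA B η := cvR_neg _ _

theorem cvR_FS (B : Matrix m n (ZG Γ)) {ξ : m × Γ → K} (h : FS ξ) : FS (cvR B ξ) := by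
  classical
  let H : Finset Γ := Finset.univ.biUnion fun i : m => Finset.univ.biUnion fun j : n => (B i j).coeff.support
  have hfin : ((fun q : ((m × Γ) × Γ) × n => (q.2, q.1.1.2 * q.1.2)) ''
      ((Function.support ξ ×ˢ (H : Set Γ)) ×ˢ (Set.univ : Set n))).Finite :=
    ((h.prod H.finite_toSet).prod Set.finite_univ).image _
  refine hfin.subset ?_
  rintro ⟨j, g⟩ hp
  rw [Function.mem_support, cvR_apply] at hp
  obtain ⟨i, -, hi⟩ := Finset.exists_ne_zero_of_sum_ne_zero hp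
  obtain ⟨x, hx, hx'⟩ := Finset.exists_ne_zero_of_sum_ne_zero hi
  have hξ : ξ (i, g * x⁻¹) ≠ 0 := fun h0 => hx' (by rw [h0, smul_zero])
  refine ⟨(((i, g * x⁻¹), x), j), ⟨⟨hξ, ?_⟩, Set.mem_univ _⟩, by simp⟩
  simp only [H, Finset.coe_biUnion, Set.mem_iUnion]
  exact ⟨i, Finset.mem_coe.2 (Finset.mem_univ _), j, Finset.mem_coe.2 (Finset.mem_univ _), hx⟩
theorem cvA_FS (B : Matrix m n (ZG Γ)) {η : n × Γ → K} (h : FS η) : FS (cvA B η) := cvR_FS _ h
theorem FS.add {X : Type} {ξ ξ' : X → K} (h : FS ξ) (h' : FS ξ') : FS (ξ + ξ') :=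
  (Set.Finite.union h h').subset (Function.support_add ξ ξ')
theorem FS.sub {X : Type} {ξ ξ' : X → K} (h : FS ξ) (h' : FS ξ') : FS (ξ - ξ') :=
  (Set.Finite.union h h').subset (Function.support_sub ξ ξ')

/-- change of coefficients -/
theorem cvR_hom (φ : K →+ K') (B : Matrix m n (ZG Γ)) (ξ : m × Γ → K) :
    cvR B (fun p => φ (ξ p)) = fun p => φ (cvR B ξ p) := by
  funext p
  obtain ⟨j, g⟩ := p
  rw [cvR_apply, cvR_apply, map_sum]
  refine Finset.sum_congr rfl fun i _ => ?_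
  rw [map_sum]
  exact Finset.sum_congr rfl fun h _ => (map_zsmul φ _ _).symm
theorem cvA_hom (φ : K →+ K') (B : Matrix m n (ZG Γ)) (η : n × Γ → K) :
    cvA B (fun p => φ (η p)) = fun p => φ (cvA B η p) := cvR_hom φ _ η

end Op

section Fn

theorem fnOf_apply (x : m → ZG Γ) (i : m) (g : Γ) : fnOf x (i, g) = (x i).coeff g := rfl

theorem fnOf_FS (x : m → ZG Γ) : FS (fnOf x) := by
  classical
  have hfin : (⋃ i : m, (fun g => (i, g)) '' ((x i).coeff.support : Set Γ)).Finite :=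
    Set.finite_iUnion fun i => ((x i).coeff.support.finite_toSet).image _
  refine hfin.subset ?_
  rintro ⟨i, g⟩ hp
  rw [Function.mem_support, fnOf_apply] at hp
  exact Set.mem_iUnion.2 ⟨i, g, Finset.mem_coe.2 (Finsupp.mem_support_iff.2 hp), rfl⟩
theorem fnOf_injective : Function.Injective (fnOf : (m → ZG Γ) → m × Γ → ℤ) := by
  intro x y h
  funext i
  exact zg_ext fun g => congrFun h (i, g)
theorem exists_fnOf {ξ : m × Γ → ℤ} (h : FS ξ) : ∃ x : m → ZG Γ, ξ = fnOf x := by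
  have hfin : ∀ i : m, (Function.support fun g => ξ (i, g)).Finite := by
    intro i
    refine (h.image Prod.snd).subset ?_
    intro g hg
    exact ⟨(i, g), hg, rfl⟩
  refine ⟨fun i => MonoidAlgebra.ofCoeff (Finsupp.ofSupportFinite (fun g => ξ (i, g)) (hfin i)), ?_⟩
  funext p
  rfl
theorem fnOf_zero : fnOf (0 : m → ZG Γ) = 0 := rfl
theorem fnOf_add (x y : m → ZG Γ) : fnOf (x + y) = fnOf x + fnOf y := rfl
theorem cvR_fnOf (B : Matrix m n (ZG Γ)) (x : m → ZG Γ) : cvR B (fnOf x) = fnOf (x ᵥ* B) := by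
  funext p
  obtain ⟨j, g⟩ := p
  rw [fnOf_apply, cvR_eq]
  simp only [Matrix.vecMul, dotProduct]
  rw [MonoidAlgebra.coeff_sum, Finsupp.finsetSum_apply]
  refine Finset.sum_congr rfl fun i _ => ?_
  rw [MonoidAlgebra.coeff_mul_apply_right, ra_apply]
  refine Finsupp.sum_congr fun h _ => ?_
  rw [smul_eq_mul, mul_comm]
  rfl
/-- columns: `cvA B` on `fnOf (zstar ∘ y)` is `B *ᵥ y` -/
theorem cvA_fnOf (B : Matrix m n (ZG Γ)) (y : n → ZG Γ) :
    cvA B (fnOf fun j => zstar (y j)) = fnOf fun i => zstar ((B *ᵥ y) i) := by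
  unfold cvA
  rw [cvR_fnOf]
  congr 1
  funext i
  have h := congrFun (zstar_vecMul_adj (fun j => zstar (y j)) B) i
  simp only [zstar_zstar] at h
  rw [← h, zstar_zstar]

end Fn

section Twist

theorem twF_apply (ε : Γ →* ℤˣ) (ξ : m × Γ → K) (p : m × Γ) : twF ε ξ p = ((ε p.2 : ℤˣ) : ℤ) • ξ p := rfl

theorem twF_twF (ε : Γ →* ℤˣ) (ξ : m × Γ → K) : twF ε (twF ε ξ) = ξ := by
  funext p
  rw [twF_apply, twF_apply, smul_smul, Int.units_coe_mul_self, one_smul]

theorem ra_twE (ε : Γ →* ℤˣ) (a : ZG Γ) (u : Γ → K) (g : Γ) :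
    ra (twE ε a) (fun x => ((ε x : ℤˣ) : ℤ) • u x) g = ((ε g : ℤˣ) : ℤ) • ra a u g := by
  induction a using MonoidAlgebra.induction_linear with
  | zero => simp [ra_zero_left]
  | add x y hx hy => rw [map_add, ra_add_left, ra_add_left, Pi.add_apply, Pi.add_apply, hx, hy, smul_add]
  | single h c =>
    rw [twE_single, ra_single, ra_single, smul_smul, smul_smul, map_mul, map_inv, Int.units_inv_eq_self,
      Units.val_mul]
    congr 1
    have := Int.units_coe_mul_self (ε h)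
    calc c * ((ε h : ℤˣ) : ℤ) * (((ε g : ℤˣ) : ℤ) * ((ε h : ℤˣ) : ℤ))
        = c * ((ε g : ℤˣ) : ℤ) * (((ε h : ℤˣ) : ℤ) * ((ε h : ℤˣ) : ℤ)) := by ring
      _ = ((ε g : ℤˣ) : ℤ) * c := by rw [this]; ring

theorem cvR_tw (ε : Γ →* ℤˣ) (B : Matrix m n (ZG Γ)) (ξ : m × Γ → K) :
    cvR (B.map (twE ε)) (twF ε ξ) = twF ε (cvR B ξ) := by
  funext p
  rw [twF_apply, cvR_eq, cvR_eq, Finset.smul_sum]
  refine Finset.sum_congr rfl fun i _ => ?_
  exact ra_twE ε (B i p.1) (fun g => ξ (i, g)) p.2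
theorem cvA_tw (ε : Γ →* ℤˣ) (B : Matrix m n (ZG Γ)) (η : n × Γ → K) :
    cvA (B.map (twE ε)) (twF ε η) = twF ε (cvA B η) := by
  unfold cvA
  rw [adj_map_twE, cvR_tw]

end Twist

section Pair

theorem ra_FS (a : ZG Γ) {u : Γ → K} (h : FS u) : FS (ra a u) := by
  have hfin : ((fun q : Γ × Γ => q.1 * q.2) '' (Function.support u ×ˢ (a.coeff.support : Set Γ))).Finite :=
    (h.prod a.coeff.support.finite_toSet).image _
  refine hfin.subset ?_
  intro g hg
  rw [Function.mem_support, ra_apply] at hg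
  obtain ⟨x, hx, hx'⟩ := Finset.exists_ne_zero_of_sum_ne_zero hg
  have hu : u (g * x⁻¹) ≠ 0 := fun h0 => hx' (by simp only [h0, smul_zero])
  exact ⟨(g * x⁻¹, x), ⟨hu, hx⟩, by simp⟩

theorem FS.smul_left {X : Type} {u : X → ℤ} (h : FS u) (v : X → K) : FS fun x => u x • v x := by
  refine h.subset ?_
  intro x hx h0
  exact hx (by simp only [h0, zero_smul])

theorem pair_ra (a : ZG Γ) {u : Γ → ℤ} (hu : FS u) (v : Γ → K) :
    ∑ᶠ g, ra a u g • v g = ∑ᶠ g, u g • ra (zstar a) v g := by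
  induction a using MonoidAlgebra.induction_linear with
  | zero => simp [zstar_zero, ra_zero_left]
  | add x y hx hy =>
    have h1 : ∀ g, ra (x + y) u g • v g = ra x u g • v g + ra y u g • v g := fun g => by
      rw [ra_add_left, Pi.add_apply, add_smul]
    have h2 : ∀ g, u g • ra (zstar (x + y)) v g = u g • ra (zstar x) v g + u g • ra (zstar y) v g := fun g => by
      rw [zstar_add, ra_add_left, Pi.add_apply, smul_add]
    simp only [h1, h2]
    rw [finsum_add_distrib ((ra_FS x hu).smul_left v) ((ra_FS y hu).smul_left v),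
      finsum_add_distrib (hu.smul_left (ra (zstar x) v)) (hu.smul_left (ra (zstar y) v)), hx, hy]
  | single h c =>
    rw [← finsum_comp_equiv (Equiv.mulRight h)]
    refine finsum_congr fun g => ?_
    rw [zstar_single, ra_single, ra_single, Equiv.coe_mulRight, mul_inv_cancel_right, inv_inv, smul_smul,
      smul_eq_mul, mul_comm]

/-- Stokes: finite integral chains against arbitrary cochains -/
theorem pair_cvR (B : Matrix m n (ZG Γ)) {x : m × Γ → ℤ} (hx : FS x) (η : n × Γ → K) :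
    ∑ᶠ p, cvR B x p • η p = ∑ᶠ p, x p • cvA B η p := by
  have hxi : ∀ i : m, FS fun g => x (i, g) := by
    intro i
    refine (hx.image Prod.snd).subset ?_
    intro g hg
    exact ⟨(i, g), hg, rfl⟩
  rw [finsum_curry _ ((cvR_FS B hx).smul_left η), finsum_curry _ (hx.smul_left (cvA B η)),
    finsum_eq_sum_of_fintype, finsum_eq_sum_of_fintype]
  have L : ∀ j : n, ∑ᶠ g, cvR B x (j, g) • η (j, g) =
      ∑ i, ∑ᶠ g, x (i, g) • ra (zstar (B i j)) (fun g => η (j, g)) g := by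
    intro j
    have h1 : ∀ g, cvR B x (j, g) • η (j, g) = ∑ i, ra (B i j) (fun g => x (i, g)) g • η (j, g) := fun g => by
      rw [cvR_eq, Finset.sum_smul]
    simp only [h1]
    rw [finsum_sum_comm _ _ fun i _ => (ra_FS (B i j) (hxi i)).smul_left fun g => η (j, g)]
    exact Finset.sum_congr rfl fun i _ => pair_ra (B i j) (hxi i) fun g => η (j, g)
  have R : ∀ i : m, ∑ᶠ g, x (i, g) • cvA B η (i, g) =
      ∑ j, ∑ᶠ g, x (i, g) • ra (zstar (B i j)) (fun g => η (j, g)) g := by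
    intro i
    have h1 : ∀ g, x (i, g) • cvA B η (i, g) = ∑ j, x (i, g) • ra (zstar (B i j)) (fun g => η (j, g)) g :=
      fun g => by
        unfold cvA
        rw [cvR_eq, Finset.smul_sum]
        rfl
    simp only [h1]
    rw [finsum_sum_comm _ _ fun j _ => (hxi i).smul_left (ra (zstar (B i j)) fun g => η (j, g))]
  simp only [L, R]
  exact Finset.sum_comm

end Pair

section L2

open scoped ENNReal


theorem l2_two_pos : 0 < (2 : ℝ≥0∞).toReal := by norm_num

open Classical in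
/-- partial sums of a partially reindexed `ℓ²` function -/
theorem l2_reindex_aux {α β : Type} (S : β → Prop) (φ : β → α)
    (hφ : ∀ b b', S b → S b' → φ b = φ b' → b = b') (ξ : lp (fun _ : α => ℂ) 2) (s : Finset β) :
    ∑ b ∈ s, ‖(if S b then ξ (φ b) else 0 : ℂ)‖ ^ (2 : ℝ≥0∞).toReal ≤ ‖ξ‖ ^ (2 : ℝ≥0∞).toReal := by
  have h1 : ∑ b ∈ s, ‖(if S b then ξ (φ b) else 0 : ℂ)‖ ^ (2 : ℝ≥0∞).toReal =
      ∑ b ∈ s.filter S, ‖ξ (φ b)‖ ^ (2 : ℝ≥0∞).toReal := by
    rw [Finset.sum_filter]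
    refine Finset.sum_congr rfl fun b _ => ?_
    split_ifs
    · rfl
    · rw [norm_zero, Real.zero_rpow l2_two_pos.ne']
  have h2 : ∑ b ∈ s.filter S, ‖ξ (φ b)‖ ^ (2 : ℝ≥0∞).toReal =
      ∑ a ∈ (s.filter S).image φ, ‖ξ a‖ ^ (2 : ℝ≥0∞).toReal := by
    rw [Finset.sum_image]
    intro b hb b' hb' h
    exact hφ b b' (Finset.mem_filter.1 hb).2 (Finset.mem_filter.1 hb').2 h
  rw [h1, h2]
  exact lp.sum_rpow_le_norm_rpow l2_two_pos ξ _

open Classical in
/-- partial reindexing as a contraction of `ℓ²` spaces -/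
noncomputable def l2T {α β : Type} (S : β → Prop) (φ : β → α)
    (hφ : ∀ b b', S b → S b' → φ b = φ b' → b = b') :
    lp (fun _ : α => ℂ) 2 →L[ℂ] lp (fun _ : β => ℂ) 2 :=
  LinearMap.mkContinuous
    { toFun := fun ξ => ⟨fun b => if S b then ξ (φ b) else 0, memℓp_gen' (l2_reindex_aux S φ hφ ξ)⟩
      map_add' := fun ξ ξ' => by
        apply lp.ext
        funext b
        change (if S b then (ξ + ξ') (φ b) else 0) = (if S b then ξ (φ b) else 0) + (if S b then ξ' (φ b) else 0)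
        split_ifs
        · rfl
        · simp
      map_smul' := fun c ξ => by
        apply lp.ext
        funext b
        change (if S b then (c • ξ) (φ b) else 0) = c • (if S b then ξ (φ b) else 0)
        split_ifs
        · rfl
        · simp }
    1 (fun ξ => by
      rw [one_mul]
      exact lp.norm_le_of_forall_sum_le l2_two_pos (norm_nonneg _) (l2_reindex_aux S φ hφ ξ))

open Classical in
theorem l2T_apply {α β : Type} (S : β → Prop) (φ : β → α)
    (hφ : ∀ b b', S b → S b' → φ b = φ b' → b = b') (ξ : lp (fun _ : α => ℂ) 2) (b : β) :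
    l2T S φ hφ ξ b = if S b then ξ (φ b) else 0 := rfl

/-- `(ξ ↦ [j' = j] ξ (i, g h⁻¹))` -/
noncomputable def l2E (i : m) (j : n) (h : Γ) : L2 m Γ →L[ℂ] L2 n Γ :=
  l2T (fun p : n × Γ => p.1 = j) (fun p => (i, p.2 * h⁻¹)) (by
    rintro ⟨j₁, g₁⟩ ⟨j₂, g₂⟩ h₁ h₂ h₃
    simp only at h₁ h₂
    simp only [Prod.mk.injEq, mul_left_inj, true_and] at h₃
    rw [h₁, h₂, h₃])

open Classical in
theorem l2E_apply (i : m) (j : n) (h : Γ) (ξ : L2 m Γ) (p : n × Γ) :
    l2E i j h ξ p = if p.1 = j then ξ (i, p.2 * h⁻¹) else 0 := rfl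

theorem l2_sum_apply {ι X : Type} (s : Finset ι) (f : ι → lp (fun _ : X => ℂ) 2) (p : X) :
    (∑ i ∈ s, f i) p = ∑ i ∈ s, f i p := by
  rw [lp.coeFn_sum, Finset.sum_apply]

/-- explicit form of the bounded operator `cvR B` -/
noncomputable def cvOp (B : Matrix m n (ZG Γ)) : L2 m Γ →L[ℂ] L2 n Γ :=
  ∑ i, ∑ j, (B i j).coeff.sum fun h c => (c : ℂ) • l2E i j h

theorem cvOp_eq (B : Matrix m n (ZG Γ)) (ξ : L2 m Γ) :
    cvOp B ξ = ∑ i, ∑ j, (B i j).coeff.sum fun h c => (c : ℂ) • l2E i j h ξ := by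
  simp only [cvOp, Finsupp.sum, _root_.sum_apply, _root_.smul_apply]

theorem cvOp_apply (B : Matrix m n (ZG Γ)) (ξ : L2 m Γ) (p : n × Γ) :
    cvOp B ξ p = cvR B (fun q => ξ q) p := by
  classical
  obtain ⟨j', g⟩ := p
  rw [cvR_apply, cvOp_eq, l2_sum_apply]
  refine Finset.sum_congr rfl fun i _ => ?_
  rw [l2_sum_apply, Finset.sum_eq_single j']
  · rw [Finsupp.sum, l2_sum_apply]
    refine Finset.sum_congr rfl fun h _ => ?_
    rw [lp.coeFn_smul, Pi.smul_apply, l2E_apply, if_pos rfl, zsmul_eq_mul, smul_eq_mul]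
  · intro j _ hj
    rw [Finsupp.sum, l2_sum_apply]
    refine Finset.sum_eq_zero fun h _ => ?_
    rw [lp.coeFn_smul, Pi.smul_apply, l2E_apply, if_neg (fun h' => hj h'.symm), smul_zero]
  · intro h
    exact absurd (Finset.mem_univ _) h

theorem exists_cvRL (B : Matrix m n (ZG Γ)) :
    ∃ T : L2 m Γ →L[ℂ] L2 n Γ, ∀ (ξ : L2 m Γ) (p : n × Γ), T ξ p = cvR B (fun q => ξ q) p :=
  ⟨cvOp B, cvOp_apply B⟩


/-- `cvR B` as a bounded operator -/
noncomputable def cvRL (B : Matrix m n (ZG Γ)) : L2 m Γ →L[ℂ] L2 n Γ := Classical.choose (exists_cvRL B)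

theorem cvRL_apply (B : Matrix m n (ZG Γ)) (ξ : L2 m Γ) (p : n × Γ) : cvRL B ξ p = cvR B (fun q => ξ q) p :=
  Classical.choose_spec (exists_cvRL B) ξ p

theorem cvRL_coe (B : Matrix m n (ZG Γ)) (ξ : L2 m Γ) : (fun p => cvRL B ξ p) = cvR B (fun q => ξ q) :=
  funext (cvRL_apply B ξ)

/-- `cvA B` as a bounded operator -/
noncomputable def cvAL (B : Matrix m n (ZG Γ)) : L2 n Γ →L[ℂ] L2 m Γ := cvRL (adj B)

theorem cvAL_coe (B : Matrix m n (ZG Γ)) (η : L2 n Γ) : (fun p => cvAL B η p) = cvA B (fun q => η q) :=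
  cvRL_coe (adj B) η

theorem cvRL_eq_cvOp (B : Matrix m n (ZG Γ)) : cvRL B = cvOp B :=
  ContinuousLinearMap.ext fun ξ => lp.ext (funext fun p => by rw [cvRL_apply, cvOp_apply])

theorem l2E_inner (i : m) (j : n) (h : Γ) (ξ : L2 m Γ) (η : L2 n Γ) :
    ⟪l2E i j h ξ, η⟫_ℂ = ⟪ξ, l2E j i h⁻¹ η⟫_ℂ := by
  classical
  rw [lp.inner_eq_tsum, lp.inner_eq_tsum]
  have h1 : ∑' p : n × Γ, ⟪l2E i j h ξ p, η p⟫_ℂ = ∑' g : Γ, ⟪ξ (i, g * h⁻¹), η (j, g)⟫_ℂ := by
    rw [← Function.Injective.tsum_eq (g := fun g : Γ => ((j, g) : n × Γ))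
      (f := fun p : n × Γ => ⟪l2E i j h ξ p, η p⟫_ℂ)]
    · refine tsum_congr fun g => ?_
      rw [l2E_apply, if_pos rfl]
    · intro a b hab
      exact (Prod.mk.inj hab).2
    · rintro ⟨j', g⟩ hp
      by_cases hj : j' = j
      · exact ⟨g, by rw [hj]⟩
      · exfalso
        apply hp
        change ⟪l2E i j h ξ (j', g), η (j', g)⟫_ℂ = 0
        rw [l2E_apply, if_neg hj, inner_zero_left]
  have h2 : ∑' q : m × Γ, ⟪ξ q, l2E j i h⁻¹ η q⟫_ℂ = ∑' g : Γ, ⟪ξ (i, g), η (j, g * h⁻¹⁻¹)⟫_ℂ := by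
    rw [← Function.Injective.tsum_eq (g := fun g : Γ => ((i, g) : m × Γ))
      (f := fun q : m × Γ => ⟪ξ q, l2E j i h⁻¹ η q⟫_ℂ)]
    · refine tsum_congr fun g => ?_
      rw [l2E_apply, if_pos rfl]
    · intro a b hab
      exact (Prod.mk.inj hab).2
    · rintro ⟨i', g⟩ hp
      by_cases hi : i' = i
      · exact ⟨g, by rw [hi]⟩
      · exfalso
        apply hp
        change ⟪ξ (i', g), l2E j i h⁻¹ η (i', g)⟫_ℂ = 0
        rw [l2E_apply, if_neg hi, inner_zero_right]
  rw [h1, h2, ← Equiv.tsum_eq (Equiv.mulRight h⁻¹) (fun g => ⟪ξ (i, g), η (j, g * h⁻¹⁻¹)⟫_ℂ)]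
  refine tsum_congr fun g => ?_
  rw [Equiv.coe_mulRight, mul_inv_cancel_right]

theorem zstar_coeff_sum {M : Type} [AddCommMonoid M] (a : ZG Γ) (F : Γ → ℤ → M) (h0 : ∀ g, F g 0 = 0)
    (h1 : ∀ g c c', F g (c + c') = F g c + F g c') :
    (zstar a).coeff.sum F = a.coeff.sum fun h c => F h⁻¹ c := by
  change (Finsupp.mapDomain (fun g : Γ => g⁻¹) a.coeff).sum F = _
  exact Finsupp.sum_mapDomain_index h0 h1

theorem cvRL_inner (B : Matrix m n (ZG Γ)) (ξ : L2 m Γ) (η : L2 n Γ) :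
    ⟪cvRL B ξ, η⟫_ℂ = ⟪ξ, cvAL B η⟫_ℂ := by
  unfold cvAL
  rw [cvRL_eq_cvOp, cvRL_eq_cvOp, cvOp_eq, cvOp_eq, sum_inner, inner_sum]
  simp only [sum_inner, inner_sum]
  rw [Finset.sum_comm]
  refine Finset.sum_congr rfl fun j _ => Finset.sum_congr rfl fun i _ => ?_
  rw [adj_apply, zstar_coeff_sum _ _ (by simp) (by intros; push_cast; exact add_smul _ _ _)]
  simp only [Finsupp.sum, sum_inner, inner_sum]
  refine Finset.sum_congr rfl fun h _ => ?_
  rw [inner_smul_left, inner_smul_right, l2E_inner, map_intCast]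

theorem cvRL_mul (A : Matrix l m (ZG Γ)) (B : Matrix m n (ZG Γ)) (ξ : L2 l Γ) :
    cvRL (A * B) ξ = cvRL B (cvRL A ξ) :=
  lp.ext (funext fun p => by rw [cvRL_apply, cvRL_apply, cvRL_coe, cvR_mul])
theorem cvRL_mat_add (A B : Matrix m n (ZG Γ)) (ξ : L2 m Γ) : cvRL (A + B) ξ = cvRL A ξ + cvRL B ξ :=
  lp.ext (funext fun p => by
    rw [lp.coeFn_add, Pi.add_apply, cvRL_apply, cvRL_apply, cvRL_apply, cvR_mat_add, Pi.add_apply])
theorem cvRL_mat_sub (A B : Matrix m n (ZG Γ)) (ξ : L2 m Γ) : cvRL (A - B) ξ = cvRL A ξ - cvRL B ξ :=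
  lp.ext (funext fun p => by
    rw [lp.coeFn_sub, Pi.sub_apply, cvRL_apply, cvRL_apply, cvRL_apply, cvR_mat_sub, Pi.sub_apply])
theorem cvRL_mat_one [DecidableEq m] (ξ : L2 m Γ) : cvRL (1 : Matrix m m (ZG Γ)) ξ = ξ :=
  lp.ext (funext fun p => by rw [cvRL_apply, cvR_mat_one])
theorem cvRL_mat_zero (ξ : L2 m Γ) : cvRL (0 : Matrix m n (ZG Γ)) ξ = 0 :=
  lp.ext (funext fun p => by rw [cvRL_apply, cvR_mat_zero, lp.coeFn_zero])
theorem cvRL_eq_zero_iff (B : Matrix m n (ZG Γ)) (ξ : L2 m Γ) : cvRL B ξ = 0 ↔ cvR B (fun q => ξ q) = 0 := by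
  rw [← cvRL_coe, lp.eq_zero_iff_coeFn_eq_zero]
theorem cvAL_eq_zero_iff (B : Matrix m n (ZG Γ)) (η : L2 n Γ) : cvAL B η = 0 ↔ cvA B (fun q => η q) = 0 := by
  rw [← cvAL_coe, lp.eq_zero_iff_coeFn_eq_zero]

/-- the twist is a unitary of `ℓ²` -/
theorem exists_twL (ε : Γ →* ℤˣ) (ξ : L2 m Γ) : ∃ ξ' : L2 m Γ, (fun p => ξ' p) = twF ε (fun p => ξ p) := by
  have hn : ∀ p : m × Γ, ‖twF ε (fun p => ξ p) p‖ = ‖ξ p‖ := by
    intro p
    rw [twF_apply]
    rcases Int.units_eq_one_or (ε p.2) with h | h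
    · rw [h]; simp
    · rw [h]; simp
  have hmem : Memℓp (twF ε (fun p => ξ p)) 2 := by
    refine memℓp_gen ?_
    simp only [hn]
    exact (lp.memℓp ξ).summable l2_two_pos
  exact ⟨⟨_, hmem⟩, rfl⟩

/-- an `ℓ²` function on an infinite group whose modulus is right translation invariant vanishes -/
theorem l2_const_zero [Infinite Γ] (u : lp (fun _ : Γ => ℂ) 2) (h : ∀ g x : Γ, ‖u (x * g)‖ = ‖u x‖) : u = 0 := by
  have hc : ∀ x : Γ, ‖u x‖ = ‖u 1‖ := fun x => by rw [← h x 1, one_mul]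
  have hs := (lp.memℓp u).summable l2_two_pos
  simp only [hc] at hs
  rw [summable_const_iff] at hs
  have h0 : ‖u 1‖ = 0 := by
    by_contra hne
    exact (Real.rpow_pos_of_pos (lt_of_le_of_ne (norm_nonneg _) (Ne.symm hne)) _).ne' hs
  refine lp.ext (funext fun x => ?_)
  rw [lp.coeFn_zero, Pi.zero_apply, ← norm_eq_zero, hc, h0]

end L2

end Claimed.Agent.R309.S2
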