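import Claimed.Agent.R309.Defs
import Claimed.Prelude.Def_0492

/-!
# Row 309, package S2 (Lean interface + Sec 2 of the paper): DEFINITIONS.   Sub-captain: helper211.

Everything is phrased with
* matrices over `ZG Γ = ℤ[Γ]`, ROW convention (`x ᵥ* B`; the frozen resolution `R` is in this convention),
* the convolution operators `cvR B : (m × Γ → K) → (n × Γ → K)` (`ξ ↦ ξ B`, boundary type, `= rightMulL2`) and
  `cvA B = cvR (adj B)` (`η ↦ η B^*`, coboundary type, `= rightMulAdjL2`) on ARBITRARY functions with values in an abelian group `K`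
  (`K = ℤ`, finite support: chains;  `K = ZMod 2`: mod 2 cochains;  `K = ℂ`, `ℓ²`: the Hilbert complexes).
No von Neumann dimension theory, no module categories outside `S2/Coh.lean`.
-/

set_option autoImplicit false

namespace Claimed.Agent.R309.S2

open Claims.C0492 Matrix

/-- the integral group ring -/
abbrev ZG (Γ : Type) [Group Γ] : Type := MonoidAlgebra ℤ Γ

variable {Γ : Type} [Group Γ]

/-! ### the ring `ℤ[Γ]` -/

/-- the involution `∑ a_g g ↦ ∑ a_g g⁻¹` -/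
noncomputable def zstar (a : ZG Γ) : ZG Γ := MonoidAlgebra.mapDomain (fun g : Γ => g⁻¹) a

/-- `B^*`: transpose + involution -/
noncomputable def adj {m n : Type} (B : Matrix m n (ZG Γ)) : Matrix n m (ZG Γ) := fun j i => zstar (B i j)

/-- the twisted augmentation `∑ a_g g ↦ ∑ a_g ε(g)` as a ring homomorphism (`ε = 1`: the augmentation) -/
noncomputable def augE (ε : Γ →* ℤˣ) : ZG Γ →+* ℤ :=
  (MonoidAlgebra.lift ℤ ℤ Γ ((Units.coeHom ℤ).comp ε)).toRingHom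

/-- the twist automorphism `∑ a_g g ↦ ∑ a_g ε(g) g` -/
noncomputable def twE (ε : Γ →* ℤˣ) : ZG Γ →+* ZG Γ :=
  (MonoidAlgebra.lift ℤ (ZG Γ) Γ
    { toFun := fun g => MonoidAlgebra.single g ((ε g : ℤˣ) : ℤ)
      map_one' := by simp [MonoidAlgebra.one_def]
      map_mul' := fun g h => by simp [MonoidAlgebra.single_mul_single] }).toRingHom

/-! ### convolution operators on functions -/

variable {K : Type} [AddCommGroup K]

/-- right convolution `u ↦ u * a`:  `(u * a)(g) = ∑_h a(h) u(g h⁻¹)` -/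
noncomputable def ra (a : ZG Γ) (u : Γ → K) : Γ → K := fun g => a.coeff.sum fun h c => c • u (g * h⁻¹)

/-- `ξ ↦ ξ B` -/
noncomputable def cvR {m n : Type} [Fintype m] (B : Matrix m n (ZG Γ)) (ξ : m × Γ → K) : n × Γ → K :=
  fun p => ∑ i, ra (B i p.1) (fun g => ξ (i, g)) p.2

/-- `η ↦ η B^*` -/
noncomputable def cvA {m n : Type} [Fintype n] (B : Matrix m n (ZG Γ)) (η : n × Γ → K) : m × Γ → K :=
  cvR (adj B) η

/-- a vector over `ℤ[Γ]` as a finitely supported function -/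
def fnOf {m : Type} (x : m → ZG Γ) : m × Γ → ℤ := fun p => (x p.1).coeff p.2

/-- finitely supported -/
def FS {X : Type} (ξ : X → K) : Prop := (Function.support ξ).Finite

/-- pointwise twist of a function by a character -/
def twF {m : Type} (ε : Γ →* ℤˣ) (ξ : m × Γ → K) : m × Γ → K := fun p => ((ε p.2 : ℤˣ) : ℤ) • ξ p

/-- the `ℓ²` space -/
abbrev L2 (m : Type) (Γ : Type) : Type := lp (fun _ : m × Γ => ℂ) 2

/-- harmonic vectors of `n2 --d1--> n1 --d0--> n0` -/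
def Harm {n0 n1 n2 : Type} [Fintype n1] (d0 : Matrix n1 n0 (ZG Γ)) (d1 : Matrix n2 n1 (ZG Γ))
    (ξ : L2 n1 Γ) : Prop :=
  cvR d0 (fun p => ξ p) = 0 ∧ cvA d1 (fun p => ξ p) = 0

/-! ### output of the comparison with Mathlib's group cohomology -/

/-- `H^i(Γ; ℤΓ) = 0` for `i ≠ 4`, `≅ ℤ` for `i = 4`, read on the dual complex `y ↦ D_i y` (columns) of `R`. -/
structure PD4 (R : FiniteFreeResolution Γ) : Prop where
  ex0 : ∀ y : Fin (R.r 0) → ZG Γ, (R.D 0) *ᵥ y = 0 → y = 0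
  ex : ∀ k, k ≠ 3 → ∀ y : Fin (R.r (k + 1)) → ZG Γ, (R.D (k + 1)) *ᵥ y = 0 → ∃ z, y = (R.D k) *ᵥ z
  ex4 : ∃ χ : (Fin (R.r 4) → ZG Γ) → ℤ,
    (∀ y y', (R.D 4) *ᵥ y = 0 → (R.D 4) *ᵥ y' = 0 → χ (y + y') = χ y + χ y') ∧
    (∃ y, (R.D 4) *ᵥ y = 0 ∧ χ y = 1) ∧
    (∀ y, (R.D 4) *ᵥ y = 0 → (χ y = 0 ↔ ∃ z, y = (R.D 3) *ᵥ z))

/-! ### augmented partial free resolutions (row convention) -/

/-- `n2 --d1--> n1 --d0--> n0 ⊇ n0 π --aug--> ℤ_α --> 0` is exact; `π` an idempotent, `aug x = ∑ α(x_i) w_i`. -/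
structure IsPartRes {Λ : Type} [Ring Λ] (α : Λ →+* ℤ) {n0 n1 n2 : Type} [Fintype n0] [Fintype n1] [Fintype n2]
    (d0 : Matrix n1 n0 Λ) (d1 : Matrix n2 n1 Λ) (π : Matrix n0 n0 Λ) (w : n0 → ℤ) : Prop where
  d1d0 : d1 * d0 = 0
  ππ : π * π = π
  d0π : d0 * π = d0
  aug_π : ∀ x : n0 → Λ, ∑ i, α ((x ᵥ* π) i) * w i = ∑ i, α (x i) * w i
  aug_d0 : ∀ y : n1 → Λ, ∑ i, α ((y ᵥ* d0) i) * w i = 0
  ex0 : ∀ x : n0 → Λ, x ᵥ* π = x → ∑ i, α (x i) * w i = 0 → ∃ y, x = y ᵥ* d0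
  ex1 : ∀ x : n1 → Λ, x ᵥ* d0 = 0 → ∃ y, x = y ᵥ* d1
  surj : ∃ x : n0 → Λ, x ᵥ* π = x ∧ ∑ i, α (x i) * w i = 1

/-- chain maps `f : P → Q`, `g : Q → P` in degrees `≤ 2` and a homotopy `1 ≃ f g` on `P` in degree 1
(`P = (d0, d1)`, `Q = (d0', d1')`, row convention: `x ↦ x ᵥ* f`). -/
structure Cmp {Λ : Type} [Ring Λ] {n0 n1 n2 n0' n1' n2' : Type} [Fintype n0] [Fintype n1] [Fintype n2]
    [Fintype n0'] [Fintype n1'] [Fintype n2'] [DecidableEq n1]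
    (d0 : Matrix n1 n0 Λ) (d1 : Matrix n2 n1 Λ) (d0' : Matrix n1' n0' Λ) (d1' : Matrix n2' n1' Λ) where
  f0 : Matrix n0 n0' Λ
  f1 : Matrix n1 n1' Λ
  f2 : Matrix n2 n2' Λ
  g0 : Matrix n0' n0 Λ
  g1 : Matrix n1' n1 Λ
  g2 : Matrix n2' n2 Λ
  h0 : Matrix n0 n1 Λ
  h1 : Matrix n1 n2 Λ
  cf0 : d0 * f0 = f1 * d0'
  cf1 : d1 * f1 = f2 * d1'
  cg0 : d0' * g0 = g1 * d0
  cg1 : d1' * g1 = g2 * d1
  hom : 1 - f1 * g1 = d0 * h0 + h1 * d1

/-! ### the triangle complex of a generating set -/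

variable (𝔖 : GenSet Γ)

/-- generators -/
abbrev _root_.Claimed.Agent.R309.GenSet.Gen : Type := {s : Γ // s ∈ 𝔖.S}

/-- triangle types `(s₁, s₂)`, `s₁ s₂ ∈ S` -/
abbrev _root_.Claimed.Agent.R309.GenSet.Rel : Type := {t : 𝔖.Gen × 𝔖.Gen // t.1.1 * t.2.1 ∈ 𝔖.S}

noncomputable instance instDecEqGen : DecidableEq 𝔖.Gen := Classical.decEq _
noncomputable instance instDecEqRel : DecidableEq 𝔖.Rel := Classical.decEq _
noncomputable instance instFintypeRel : Fintype 𝔖.Rel := Fintype.ofFinite _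

/-- `∂ e_s = s - 1` -/
noncomputable def cay0 : Matrix 𝔖.Gen Unit (ZG Γ) := fun s _ => MonoidAlgebra.single s.1 1 - 1

/-- `∂ (s₁, s₂) = e_{s₁} + s₁ e_{s₂} - e_{s₁ s₂}` -/
noncomputable def cay1 : Matrix 𝔖.Rel 𝔖.Gen (ZG Γ) := fun t s =>
  (if s = t.1.1 then 1 else 0) + (if s = t.1.2 then MonoidAlgebra.single t.1.1.1 1 else 0)
    - (if s = ⟨t.1.1.1 * t.1.2.1, t.2⟩ then 1 else 0)

variable {𝔖}

/-- a 1-cochain as a function on `Gen × Γ` -/
def ofEdge (c : 𝔖.Edge → K) : 𝔖.Gen × Γ → K := fun p => c (p.2, p.1)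

/-- a 0-cochain as a function on `Unit × Γ` -/
def ofVert (φ : Γ → K) : Unit × Γ → K := fun p => φ p.2

/-- a 2-cochain as a function on `Rel × Γ` -/
def ofTri (b : 𝔖.Tri → K) : 𝔖.Rel × Γ → K := fun p => b ⟨(p.2, p.1.1.1, p.1.1.2), p.1.2⟩

end Claimed.Agent.R309.S2
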