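import Claimed.Agent.R309.S2.Cmp

/-!
# Row 309 / S2 / Dual: orientation character and the dual partial resolution (package S2-Dual, owner helper3; prefix `du_`)
-/

set_option autoImplicit false

namespace Claimed.Agent.R309.S2

open Claims.C0492 Matrix

variable {Γ : Type} [Group Γ]

section gen

variable {m n : Type} [Fintype n]

/-- right multiplication of a column by a scalar commutes with `M *ᵥ ·` -/
theorem du_mulVec_mul (M : Matrix m n (ZG Γ)) (y : n → ZG Γ) (a : ZG Γ) :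
    M *ᵥ (fun i => y i * a) = fun j => (M *ᵥ y) j * a := by
  funext j
  simp only [Matrix.mulVec, dotProduct, Finset.sum_mul, mul_assoc]

/-- `M *ᵥ ·` as an additive map -/
noncomputable def du_mv (M : Matrix m n (ZG Γ)) : (n → ZG Γ) →+ (m → ZG Γ) :=
  AddMonoidHom.mk' (fun y => M *ᵥ y) (Matrix.mulVec_add M)

theorem du_mv_apply (M : Matrix m n (ZG Γ)) (y : n → ZG Γ) : du_mv M y = M *ᵥ y := rfl

theorem du_mem_ker (M : Matrix m n (ZG Γ)) (y : n → ZG Γ) : y ∈ (du_mv M).ker ↔ M *ᵥ y = 0 :=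
  AddMonoidHom.mem_ker

end gen

theorem augE_zstar (ε : Γ →* ℤˣ) (a : ZG Γ) : augE ε (zstar a) = augE ε a := by
  induction a using MonoidAlgebra.induction_linear with
  | zero => rw [zstar_zero]
  | add x y hx hy => rw [zstar_add, map_add, map_add, hx, hy]
  | single g c =>
    rw [zstar_single, augE_single, augE_single, map_inv]
    rcases Int.units_eq_one_or (ε g) with h | h <;> simp [h]

variable {R : FiniteFreeResolution Γ}

/-- the orientation character -/
theorem du_char (h : PD4 R) : ∃ (ε : Γ →* ℤˣ) (χ : (Fin (R.r 4) → ZG Γ) → ℤ),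
    (∀ y y', (R.D 4) *ᵥ y = 0 → (R.D 4) *ᵥ y' = 0 → χ (y + y') = χ y + χ y') ∧
    (∃ y, (R.D 4) *ᵥ y = 0 ∧ χ y = 1) ∧
    (∀ y, (R.D 4) *ᵥ y = 0 → (χ y = 0 ↔ ∃ z, y = (R.D 3) *ᵥ z)) ∧
    (∀ y, (R.D 4) *ᵥ y = 0 → ∀ a : ZG Γ, χ (fun i => y i * a) = χ y * augE ε a) := by
  obtain ⟨χ, hadd, ⟨y₁, hy₁, hχ₁⟩, hker⟩ := h.ex4
  -- `χ` as an additive map on the cocycles
  let Z := (du_mv (R.D 4)).ker
  let χ' : Z →+ ℤ := AddMonoidHom.mk' (fun y => χ y.1)
    (fun y y' => hadd y.1 y'.1 ((du_mem_ker _ _).mp y.2) ((du_mem_ker _ _).mp y'.2))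
  have hχ' : ∀ (y : Fin (R.r 4) → ZG Γ) (hy : (R.D 4) *ᵥ y = 0),
      χ y = χ' ⟨y, (du_mem_ker _ _).mpr hy⟩ := fun y hy => rfl
  -- stability of cocycles
  have hZmul : ∀ (y : Fin (R.r 4) → ZG Γ) (a : ZG Γ), (R.D 4) *ᵥ y = 0 →
      (R.D 4) *ᵥ (fun i => y i * a) = 0 := by
    intro y a hy
    rw [du_mulVec_mul, hy]
    funext j
    simp
  have hB : ∀ z : Fin (R.r 3) → ZG Γ, (R.D 4) *ᵥ ((R.D 3) *ᵥ z) = 0 := by
    intro z
    rw [Matrix.mulVec_mulVec, res_DD, Matrix.zero_mulVec]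
  have hχB : ∀ z : Fin (R.r 3) → ZG Γ, χ ((R.D 3) *ᵥ z) = 0 := fun z =>
    (hker _ (hB z)).mpr ⟨z, rfl⟩
  -- decomposition
  have hdec : ∀ y : Fin (R.r 4) → ZG Γ, (R.D 4) *ᵥ y = 0 → ∃ z, y = χ y • y₁ + (R.D 3) *ᵥ z := by
    intro y hy
    have hmem : (R.D 4) *ᵥ (y - χ y • y₁) = 0 := by
      have : y - χ y • y₁ ∈ Z :=
        Z.sub_mem ((du_mem_ker _ _).mpr hy) (Z.zsmul_mem ((du_mem_ker _ _).mpr hy₁) _)
      exact (du_mem_ker _ _).mp this
    have h0 : χ (y - χ y • y₁) = 0 := by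
      rw [hχ' _ hmem]
      have e : (⟨y - χ y • y₁, (du_mem_ker _ _).mpr hmem⟩ : Z) =
          ⟨y, (du_mem_ker _ _).mpr hy⟩ - χ y • ⟨y₁, (du_mem_ker _ _).mpr hy₁⟩ := rfl
      rw [e, map_sub, map_zsmul, ← hχ' y hy, ← hχ' y₁ hy₁, hχ₁]
      simp
    obtain ⟨z, hz⟩ := (hker _ hmem).mp h0
    exact ⟨z, by rw [← hz]; abel⟩
  -- the character
  let nn : Γ → ℤ := fun g => χ (fun i => y₁ i * MonoidAlgebra.single g 1)
  have key : ∀ y : Fin (R.r 4) → ZG Γ, (R.D 4) *ᵥ y = 0 → ∀ g : Γ,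
      χ (fun i => y i * MonoidAlgebra.single g 1) = χ y * nn g := by
    intro y hy g
    obtain ⟨z, hz⟩ := hdec y hy
    have e : (fun i => y i * MonoidAlgebra.single g (1 : ℤ)) =
        χ y • (fun i => y₁ i * MonoidAlgebra.single g (1 : ℤ)) +
          (R.D 3) *ᵥ (fun i => z i * MonoidAlgebra.single g (1 : ℤ)) := by
      rw [du_mulVec_mul]
      funext i
      conv_lhs => rw [hz]
      simp only [Pi.add_apply, Pi.smul_apply, add_mul, smul_mul_assoc]
    have h1 : (R.D 4) *ᵥ (fun i => y₁ i * MonoidAlgebra.single g (1 : ℤ)) = 0 := hZmul _ _ hy₁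
    have h2 : (R.D 4) *ᵥ (χ y • (fun i => y₁ i * MonoidAlgebra.single g (1 : ℤ))) = 0 :=
      (du_mem_ker _ _).mp (Z.zsmul_mem ((du_mem_ker _ _).mpr h1) _)
    rw [e, hadd _ _ h2 (hB _), hχB, add_zero, hχ' _ h2]
    have e2 : (⟨χ y • (fun i => y₁ i * MonoidAlgebra.single g (1 : ℤ)), (du_mem_ker _ _).mpr h2⟩ : Z) =
        χ y • ⟨fun i => y₁ i * MonoidAlgebra.single g (1 : ℤ), (du_mem_ker _ _).mpr h1⟩ := rfl
    rw [e2, map_zsmul, ← hχ' _ h1]
    simp [nn]
  let nh : Γ →* ℤ :=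
    { toFun := nn
      map_one' := by
        show χ (fun i => y₁ i * MonoidAlgebra.single (1 : Γ) 1) = 1
        have : (fun i => y₁ i * MonoidAlgebra.single (1 : Γ) (1 : ℤ)) = y₁ := by
          funext i
          rw [← MonoidAlgebra.one_def, mul_one]
        rw [this, hχ₁]
      map_mul' := by
        intro g g'
        show χ (fun i => y₁ i * MonoidAlgebra.single (g * g') 1) = nn g * nn g'
        have : (fun i => y₁ i * MonoidAlgebra.single (g * g') (1 : ℤ)) =
            fun i => (y₁ i * MonoidAlgebra.single g (1 : ℤ)) * MonoidAlgebra.single g' (1 : ℤ) := by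
          funext i
          rw [mul_assoc, MonoidAlgebra.single_mul_single, mul_one]
        rw [this, key _ (hZmul _ _ hy₁) g'] }
  refine ⟨nh.toHomUnits, χ, hadd, ⟨y₁, hy₁, hχ₁⟩, hker, ?_⟩
  intro y hy a
  induction a using MonoidAlgebra.induction_linear with
  | zero =>
    have : (fun i => y i * (0 : ZG Γ)) = 0 := by funext i; simp
    rw [this, map_zero, mul_zero]
    have h0 := hadd 0 0 (Matrix.mulVec_zero _) (Matrix.mulVec_zero _)
    rw [add_zero] at h0
    omega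
  | add a b ha hb =>
    have : (fun i => y i * (a + b)) = (fun i => y i * a) + fun i => y i * b := by
      funext i; simp [mul_add]
    rw [this, hadd _ _ (hZmul _ _ hy) (hZmul _ _ hy), ha, hb, map_add, mul_add]
  | single g c =>
    have h1 : (R.D 4) *ᵥ (fun i => y i * MonoidAlgebra.single g (1 : ℤ)) = 0 := hZmul _ _ hy
    have h2 : (R.D 4) *ᵥ (c • (fun i => y i * MonoidAlgebra.single g (1 : ℤ))) = 0 :=
      (du_mem_ker _ _).mp (Z.zsmul_mem ((du_mem_ker _ _).mpr h1) _)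
    have e : (fun i => y i * MonoidAlgebra.single g c) =
        c • (fun i => y i * MonoidAlgebra.single g (1 : ℤ)) := by
      funext i
      rw [Pi.smul_apply, ← mul_smul_comm, MonoidAlgebra.smul_single, smul_eq_mul, mul_one]
    rw [e, hχ' _ h2]
    have e2 : (⟨c • (fun i => y i * MonoidAlgebra.single g (1 : ℤ)), (du_mem_ker _ _).mpr h2⟩ : Z) =
        c • ⟨fun i => y i * MonoidAlgebra.single g (1 : ℤ), (du_mem_ker _ _).mpr h1⟩ := rfl
    rw [e2, map_zsmul, ← hχ' _ h1, key y hy g, augE_single, MonoidHom.coe_toHomUnits]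
    simp only [smul_eq_mul]
    show c * (χ y * nn g) = χ y * (c * nn g)
    ring

/-- `zstar` applied entrywise is injective -/
theorem du_zs_inj {n : Type} {x x' : n → ZG Γ} (h : (fun j => zstar (x j)) = fun j => zstar (x' j)) :
    x = x' := by
  funext j
  have := congrArg zstar (congrFun h j)
  rwa [zstar_zstar, zstar_zstar] at this

/-- **Poincaré duality**: the dual complex, turned into rows by `adj`, is an augmented partial resolution of `ℤ_ε`. -/
theorem du_dual (h : PD4 R) (E4 : Matrix (Fin (R.r 4)) (Fin (R.r 5)) (ZG Γ))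
    (hE : R.D 4 * E4 * R.D 4 = R.D 4) :
    ∃ (ε : Γ →* ℤˣ) (w : Fin (R.r 4) → ℤ),
      IsPartRes (augE ε) (adj (R.D 3)) (adj (R.D 2)) (adj (1 - E4 * R.D 4)) w := by
  classical
  obtain ⟨ε, χ, hadd, ⟨y₁, hy₁, hχ₁⟩, hker, hmul⟩ := du_char h
  obtain ⟨P, hP⟩ : ∃ P, P = 1 - E4 * R.D 4 := ⟨_, rfl⟩
  rw [← hP]
  have hDP : R.D 4 * P = 0 := by
    rw [hP, Matrix.mul_sub, Matrix.mul_one, ← Matrix.mul_assoc, hE, sub_self]
  have hPP : P * P = P := by
    have : P * P = (1 - E4 * R.D 4) * P := by rw [← hP]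
    rw [this, Matrix.sub_mul, Matrix.one_mul, Matrix.mul_assoc, hDP, Matrix.mul_zero, sub_zero]
  have hPD : P * R.D 3 = R.D 3 := by
    rw [hP, Matrix.sub_mul, Matrix.one_mul, Matrix.mul_assoc, res_DD, Matrix.mul_zero, sub_zero]
  have hχ0 : χ 0 = 0 := by
    have h0 := hadd 0 0 (Matrix.mulVec_zero _) (Matrix.mulVec_zero _)
    rw [add_zero] at h0
    omega
  have hcol : ∀ i, R.D 4 *ᵥ (fun j => P j i) = 0 := by
    intro i
    funext k
    have := congrFun (congrFun hDP k) i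
    simpa [Matrix.mul_apply, Matrix.mulVec, dotProduct] using this
  have hZmul : ∀ (y : Fin (R.r 4) → ZG Γ) (a : ZG Γ), (R.D 4) *ᵥ y = 0 →
      (R.D 4) *ᵥ (fun i => y i * a) = 0 := by
    intro y a hy
    rw [du_mulVec_mul, hy]
    funext j
    simp
  -- `χ` of a finite sum of cocycles
  have hsum : ∀ (s : Finset (Fin (R.r 4))) (f : Fin (R.r 4) → (Fin (R.r 4) → ZG Γ)),
      (∀ i, R.D 4 *ᵥ f i = 0) → R.D 4 *ᵥ (∑ i ∈ s, f i) = 0 ∧ χ (∑ i ∈ s, f i) = ∑ i ∈ s, χ (f i) := by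
    intro s f hf
    induction s using Finset.induction_on with
    | empty => exact ⟨by simp, by simpa using hχ0⟩
    | insert a s ha ih =>
      rw [Finset.sum_insert ha, Finset.sum_insert ha]
      exact ⟨by rw [Matrix.mulVec_add, hf a, ih.1, add_zero], by rw [hadd _ _ (hf a) ih.1, ih.2]⟩
  refine ⟨ε, fun i => χ (fun j => P j i), ?_⟩
  have haug : ∀ x : Fin (R.r 4) → ZG Γ,
      ∑ i, augE ε (x i) * χ (fun j => P j i) = χ (P *ᵥ fun j => zstar (x j)) := by
    intro x
    have e : (P *ᵥ fun j => zstar (x j)) = ∑ i, fun j => P j i * zstar (x i) := by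
      funext j
      simp [Matrix.mulVec, dotProduct, Finset.sum_apply]
    rw [e, (hsum Finset.univ _ (fun i => hZmul _ _ (hcol i))).2]
    refine Finset.sum_congr rfl fun i _ => ?_
    rw [hmul _ (hcol i), augE_zstar, mul_comm]
  have hB : ∀ z : Fin (R.r 3) → ZG Γ, (R.D 4) *ᵥ ((R.D 3) *ᵥ z) = 0 := by
    intro z
    rw [Matrix.mulVec_mulVec, res_DD, Matrix.zero_mulVec]
  exact
    { d1d0 := by rw [← adj_mul, res_DD, adj_zero]
      ππ := by rw [← adj_mul, hPP]
      d0π := by rw [← adj_mul, hPD]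
      aug_π := by
        intro x
        rw [haug, haug, zstar_vecMul_adj, Matrix.mulVec_mulVec, hPP]
      aug_d0 := by
        intro y
        rw [haug, zstar_vecMul_adj, Matrix.mulVec_mulVec, hPD]
        exact (hker _ (hB _)).mpr ⟨_, rfl⟩
      ex0 := by
        intro x hx h0
        have h1 : (P *ᵥ fun j => zstar (x j)) = fun j => zstar (x j) := by
          rw [← zstar_vecMul_adj, hx]
        have h2 : R.D 4 *ᵥ (fun j => zstar (x j)) = 0 := by
          rw [← h1, Matrix.mulVec_mulVec, hDP, Matrix.zero_mulVec]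
        rw [haug, h1] at h0
        obtain ⟨z, hz⟩ := (hker _ h2).mp h0
        refine ⟨fun j => zstar (z j), du_zs_inj ?_⟩
        rw [zstar_vecMul_adj, hz]
        simp only [zstar_zstar]
      ex1 := by
        intro x hx
        have h1 : R.D 3 *ᵥ (fun j => zstar (x j)) = 0 := by
          rw [← zstar_vecMul_adj, hx]
          funext i
          simp [zstar_zero]
        obtain ⟨z, hz⟩ := h.ex 2 (by norm_num) _ h1
        refine ⟨fun j => zstar (z j), du_zs_inj ?_⟩
        rw [zstar_vecMul_adj, hz]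
        simp only [zstar_zstar]
      surj := by
        have h1 : P *ᵥ y₁ = y₁ := by
          rw [hP, Matrix.sub_mulVec, Matrix.one_mulVec, ← Matrix.mulVec_mulVec, hy₁,
            Matrix.mulVec_zero, sub_zero]
        refine ⟨fun j => zstar (y₁ j), du_zs_inj ?_, ?_⟩
        · rw [zstar_vecMul_adj]
          simp only [zstar_zstar]
          exact h1
        · rw [haug]
          simp only [zstar_zstar]
          rw [h1, hχ₁] }

end Claimed.Agent.R309.S2
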