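import Claimed.Agent.R309.S2.Harm
import Claimed.Agent.R309.S2.Dual

/-!
# Row 309 / S2 / Easy: `Γ` infinite, reduction of `l2Betti` to harmonic vectors, splitting of the top of the dual complex, the dual partial resolution,
degrees `0`, `4`, `≥ 5`.
PACKAGES  S2-Easy-a (`s2_infinite`, `vonNeumannDim_zero`, `l2Betti_zero`, `l2Betti_succ`, `s2_split`, `harm_ge5`; ~600 lines),
          S2-Dual (`s2_char`, `s2_dual`; ~700 lines),   glue (`harm_deg0`, `harm_deg4`, `s2_easy`) is sorry free.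

* `s2_infinite`: if `Γ` is finite, `N := ∑_g single g 1`, `a * N = aug a • N`; rows of `D 0` have augmentation `0` (`exact_zero`), so `D 0 *ᵥ (fun _ => N) = 0`,
  `ex0` gives `N = 0` or `r 0 = 0`; `r 0 ≠ 0` by `aug_surjective 1`.
* `vonNeumannDim_zero`: `span S = ⊥`, closure `⊥`, `starProjection = 0`.
* `s2_split`: downward induction.  `P k := ∃ E_k, D k * E_k * D k = D k`; true for `k ≥ len` (`r (k+1) = 0`).  Given `E_{k+1}` with `D(k+1) E_{k+1} D(k+1) = D(k+1)` and `k ≥ 4`: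
  the columns of `1 - E_{k+1} * D (k+1)` are killed by `D (k+1) *ᵥ ·`, so (`PD4.ex k`, `k ≠ 3`) `1 - E_{k+1} * D (k+1) = D k * E_k` (COLUMN lifting), and `D k E_k D k = D k` by `res_DD`.
  (Package the family with `Classical.choice` / define `E` by recursion on `len + 1 - k`.)
* `s2_char`: `χ` from `PD4.ex4`.  For `g`: `y ↦ χ (y · g)` is additive on `Z⁴ = ker (D 4 *ᵥ ·)` and kills `B⁴ = range (D 3 *ᵥ ·)`; with `y₁`, `χ y₁ = 1`: `χ (y g) = χ y * χ (y₁ g)`
  (`y - χ y • y₁ ∈ B⁴`).  `n g := χ (y₁ g)` is multiplicative, `n 1 = 1`, so `n g ∈ ℤˣ`.  Extend to `a : ZG Γ` by additivity.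
* `s2_dual`: see the checks in the docstring.
-/

set_option autoImplicit false

namespace Claimed.Agent.R309.S2

open Claims.C0492 Matrix

variable {Γ : Type} [Group Γ] {R : FiniteFreeResolution Γ}

/-- the norm element absorbs: `a * N = aug a • N` -/
theorem ea_mul_norm [Fintype Γ] (a : ZG Γ) :
    a * (∑ g : Γ, MonoidAlgebra.single g (1 : ℤ)) = augE 1 a • (∑ g : Γ, MonoidAlgebra.single g (1 : ℤ)) := by
  induction a using MonoidAlgebra.induction_linear with
  | zero => simp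
  | add a b ha hb => rw [add_mul, ha, hb, map_add, add_smul]
  | single g c =>
    rw [augE_single, Finset.mul_sum, Finset.smul_sum]
    simp only [MonoidAlgebra.single_mul_single, mul_one, MonoidHom.one_apply, Units.val_one,
      MonoidAlgebra.smul_single, smul_eq_mul]
    exact Fintype.sum_equiv (Equiv.mulLeft g) _ _ (fun h => rfl)

theorem s2_infinite (h : PD4 R) : Infinite Γ := by
  by_contra hfin
  rw [not_infinite_iff_finite] at hfin
  have := Fintype.ofFinite Γ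
  set N : ZG Γ := ∑ g : Γ, MonoidAlgebra.single g (1 : ℤ) with hN
  have hrow : ∀ j, ∑ i, augE 1 (R.D 0 j i) = 0 := by
    intro j
    have := (R.exact_zero (Pi.single j 1 ᵥ* R.D 0)).2 ⟨_, rfl⟩
    rw [Matrix.single_one_vecMul] at this
    simpa [augE_one_eq] using this
  have h0 : (R.D 0) *ᵥ (fun _ => N) = 0 := by
    funext j
    simp only [Matrix.mulVec, dotProduct, Pi.zero_apply]
    simp only [hN, ea_mul_norm]
    rw [← Finset.sum_smul, hrow, zero_smul]
  have h1 := h.ex0 _ h0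
  obtain ⟨x, hx⟩ := R.aug_surjective 1
  have hne : Nonempty (Fin (R.r 0)) := by
    by_contra hemp
    rw [not_nonempty_iff] at hemp
    simp at hx
  obtain ⟨i⟩ := hne
  have h2 : N = 0 := congrFun h1 i
  have h3 : N.coeff 1 = 1 := by
    rw [hN]
    classical
    simp [MonoidAlgebra.coeff_sum, MonoidAlgebra.coeff_single, Finsupp.single_apply]
  rw [h2] at h3
  simp at h3

theorem vonNeumannDim_zero {r : ℕ} (S : Set (lp (fun _ : Fin r × Γ => ℂ) 2)) (h : ∀ ξ ∈ S, ξ = 0) :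
    vonNeumannDim S = 0 := by
  have h1 : Submodule.span ℂ S = ⊥ := Submodule.span_eq_bot.2 h
  have h2 : (Submodule.span ℂ S).topologicalClosure = ⊥ := by
    rw [h1]
    exact IsClosed.submodule_topologicalClosure_eq (by simp)
  unfold vonNeumannDim
  simp only [h2, Submodule.starProjection_bot]
  simp

theorem l2Betti_zero (R : FiniteFreeResolution Γ)
    (h : ∀ ξ : L2 (Fin (R.r 0)) Γ, cvA (R.D 0) (fun p => ξ p) = 0 → ξ = 0) : l2Betti R 0 = 0 := by
  unfold l2Betti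
  apply vonNeumannDim_zero
  intro ξ hξ
  apply h
  rw [← rightMulAdjL2_eq]
  exact hξ

theorem l2Betti_succ (R : FiniteFreeResolution Γ) (k : ℕ)
    (h : ∀ ξ : L2 (Fin (R.r (k + 1))) Γ, Harm (R.D k) (R.D (k + 1)) ξ → ξ = 0) : l2Betti R (k + 1) = 0 := by
  unfold l2Betti
  apply vonNeumannDim_zero
  intro ξ hξ
  apply h
  refine ⟨?_, ?_⟩
  · rw [← rightMulL2_eq]
    exact hξ.1
  · rw [← rightMulAdjL2_eq]
    exact hξ.2

/-- one step of the downward induction: column lifting -/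
theorem ea_step (h : PD4 R) (k : ℕ) (hk : k ≠ 3) (E' : Matrix (Fin (R.r (k + 1))) (Fin (R.r (k + 2))) (ZG Γ))
    (hE' : R.D (k + 1) * E' * R.D (k + 1) = R.D (k + 1)) :
    ∃ E : Matrix (Fin (R.r k)) (Fin (R.r (k + 1))) (ZG Γ),
      R.D k * E + E' * R.D (k + 1) = 1 ∧ R.D k * E * R.D k = R.D k := by
  have hcol : ∀ j, ∃ z, (fun i => (1 - E' * R.D (k + 1) :
      Matrix (Fin (R.r (k + 1))) (Fin (R.r (k + 1))) (ZG Γ)) i j) = (R.D k) *ᵥ z := by
    intro j
    apply h.ex k hk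
    have h1 : R.D (k + 1) * (1 - E' * R.D (k + 1)) = 0 := by
      rw [Matrix.mul_sub, Matrix.mul_one, ← Matrix.mul_assoc, hE', sub_self]
    funext i
    have := congrFun (congrFun h1 i) j
    rw [Matrix.mul_apply] at this
    exact this
  choose z hz using hcol
  have hE : R.D k * (Matrix.of fun i j => z j i : Matrix (Fin (R.r k)) (Fin (R.r (k + 1))) (ZG Γ))
      = 1 - E' * R.D (k + 1) := by
    funext i j
    have := congrFun (hz j) i
    rw [Matrix.mul_apply]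
    exact this.symm
  refine ⟨Matrix.of fun i j => z j i, ?_, ?_⟩
  · rw [hE, sub_add_cancel]
  · rw [hE, Matrix.sub_mul, Matrix.one_mul, Matrix.mul_assoc, res_DD, Matrix.mul_zero, sub_zero]

theorem ea_split_aux (h : PD4 R) : ∀ n K : ℕ, 4 ≤ K → R.len + 1 ≤ K + n →
    ∃ E : ∀ k, Matrix (Fin (R.r k)) (Fin (R.r (k + 1))) (ZG Γ),
      (∀ k, K ≤ k → R.D k * E k + E (k + 1) * R.D (k + 1) = 1) ∧
      (∀ k, K ≤ k → R.D k * E k * R.D k = R.D k) := by
  intro n
  induction n with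
  | zero =>
    intro K _ hK
    have hemp : ∀ k, K ≤ k → IsEmpty (Fin (R.r (k + 1))) := by
      intro k hk
      rw [R.rank_eq_zero (k + 1) (by omega)]
      infer_instance
    refine ⟨fun _ => 0, ?_, ?_⟩
    · intro k hk
      have := hemp k hk
      exact Matrix.ext fun i => isEmptyElim i
    · intro k hk
      have := hemp k hk
      exact Matrix.ext fun i => isEmptyElim i
  | succ n ih =>
    intro K h4 hK
    obtain ⟨E, hE1, hE2⟩ := ih (K + 1) (by omega) (by omega)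
    obtain ⟨E0, h01, h02⟩ := ea_step h K (by omega) (E (K + 1)) (hE2 (K + 1) le_rfl)
    refine ⟨Function.update E K E0, ?_, ?_⟩
    · intro k hk
      rcases Nat.eq_or_lt_of_le hk with rfl | hlt
      · rw [Function.update_self, Function.update_of_ne (by omega)]
        exact h01
      · rw [Function.update_of_ne (by omega), Function.update_of_ne (by omega)]
        exact hE1 k hlt
    · intro k hk
      rcases Nat.eq_or_lt_of_le hk with rfl | hlt
      · rw [Function.update_self]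
        exact h02
      · rw [Function.update_of_ne (by omega)]
        exact hE2 k hlt

/-- the dual complex splits above degree 4 -/
theorem s2_split (h : PD4 R) : ∃ E : ∀ k, Matrix (Fin (R.r k)) (Fin (R.r (k + 1))) (ZG Γ),
    ∀ k, 4 ≤ k → R.D k * E k + E (k + 1) * R.D (k + 1) = 1 := by
  obtain ⟨E, hE, _⟩ := ea_split_aux h (R.len + 1) 4 le_rfl (by omega)
  exact ⟨E, hE⟩

theorem harm_ge5 (h : PD4 R) (k : ℕ) (hk : 4 ≤ k) :
    ∀ ξ : L2 (Fin (R.r (k + 1))) Γ, Harm (R.D k) (R.D (k + 1)) ξ → ξ = 0 := by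
  intro ξ hξ
  obtain ⟨E, hE⟩ := s2_split h
  have h1 : cvR (R.D k * E k + E (k + 1) * R.D (k + 1)) (fun p => ξ p) = fun p => ξ p := by
    rw [hE k hk, cvR_mat_one]
  rw [cvR_mat_add, cvR_mul, cvR_mul, hξ.1, cvR_zero, zero_add] at h1
  have h2 : ξ = cvRL (R.D (k + 1)) (cvRL (E (k + 1)) ξ) := by
    ext p
    rw [cvRL_apply, cvRL_coe]
    exact (congrFun h1 p).symm
  rw [h2]
  apply eq_zero_of_range
  rw [← h2]
  exact hξ.2

/-- the orientation character -/
theorem s2_char (h : PD4 R) : ∃ (ε : Γ →* ℤˣ) (χ : (Fin (R.r 4) → ZG Γ) → ℤ),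
    (∀ y y', (R.D 4) *ᵥ y = 0 → (R.D 4) *ᵥ y' = 0 → χ (y + y') = χ y + χ y') ∧
    (∃ y, (R.D 4) *ᵥ y = 0 ∧ χ y = 1) ∧
    (∀ y, (R.D 4) *ᵥ y = 0 → (χ y = 0 ↔ ∃ z, y = (R.D 3) *ᵥ z)) ∧
    (∀ y, (R.D 4) *ᵥ y = 0 → ∀ a : ZG Γ, χ (fun i => y i * a) = χ y * augE ε a) := du_char h

/-- **Poincaré duality**: the dual complex, turned into rows by `adj`, is an augmented partial resolution of `ℤ_ε`.
With `Π := 1 - E4 * D 4` (idempotent, `D 4 * Π = 0`, `Π * D 3 = D 3`), `w i := χ (column i of Π)`, a row `x` corresponds to the column `y = zstar ∘ x`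
(`zstar_vecMul_adj`) and `aug x = χ (Π *ᵥ y)`. -/
theorem s2_dual (h : PD4 R) (E4 : Matrix (Fin (R.r 4)) (Fin (R.r 5)) (ZG Γ)) (hE : R.D 4 * E4 * R.D 4 = R.D 4) :
    ∃ (ε : Γ →* ℤˣ) (w : Fin (R.r 4) → ℤ),
      IsPartRes (augE ε) (adj (R.D 3)) (adj (R.D 2)) (adj (1 - E4 * R.D 4)) w := du_dual h E4 hE

theorem split_four {E : ∀ k, Matrix (Fin (R.r k)) (Fin (R.r (k + 1))) (ZG Γ)}
    (hE : ∀ k, 4 ≤ k → R.D k * E k + E (k + 1) * R.D (k + 1) = 1) : R.D 4 * E 4 * R.D 4 = R.D 4 := by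
  have h1 : R.D 4 * E 4 = 1 - E 5 * R.D 5 := eq_sub_of_add_eq (hE 4 le_rfl)
  rw [h1, Matrix.sub_mul, Matrix.one_mul, Matrix.mul_assoc, res_DD, Matrix.mul_zero, sub_zero]

theorem harm_deg0 [Infinite Γ] (R : FiniteFreeResolution Γ) :
    ∀ ξ : L2 (Fin (R.r 0)) Γ, cvA (R.D 0) (fun p => ξ p) = 0 → ξ = 0 := by
  intro ξ hξ
  have h := harm0 (res_isPartRes R) ξ hξ
  rw [cvA_mat_one] at h
  ext p
  exact congrFun h p

theorem harm_deg4 (h : PD4 R) : ∀ ξ : L2 (Fin (R.r 4)) Γ, Harm (R.D 3) (R.D 4) ξ → ξ = 0 := by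
  intro ξ hξ
  have := s2_infinite h
  obtain ⟨E, hE⟩ := s2_split h
  obtain ⟨ε, w, hP⟩ := s2_dual h (E 4) (split_four hE)
  have h1 := harm0 hP ξ (by rw [cvA_adj]; exact hξ.1)
  rw [cvA_adj, cvR_mat_sub, cvR_mat_one, cvR_mul, sub_eq_zero] at h1
  have h2 : ξ = cvRL (R.D 4) (cvRL (E 4) ξ) := by
    ext p
    rw [cvRL_apply, cvRL_coe]
    exact congrFun h1 p
  rw [h2]
  apply eq_zero_of_range
  rw [← h2]
  exact hξ.2

theorem s2_easy (h : PD4 R) : ∀ k : ℕ, k ≠ 1 → k ≠ 2 → k ≠ 3 → l2Betti R k = 0 := by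
  intro k k1 k2 k3
  have := s2_infinite h
  match k, k1, k2, k3 with
  | 0, _, _, _ => exact l2Betti_zero R (harm_deg0 R)
  | 4, _, _, _ => exact l2Betti_succ R 3 (harm_deg4 h)
  | (k + 5), _, _, _ => exact l2Betti_succ R (k + 4) (harm_ge5 h (k + 4) (by omega))

end Claimed.Agent.R309.S2
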