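import Claimed.Agent.R309.S2.Cay
import Claimed.Agent.R309.S2.Cmp

/-!
# Row 309 / S2 / Harm: harmonic `ℓ²` vectors.
PACKAGES  S2-Harm-abs (`harm0`, `harm_transfer`, `harm_twist`, `harm_adj`; ~600 lines, Hilbert space + the calculus of `Conv.lean`),
          S2-Harm-cay (`harm_cay`; ~400 lines).

* `harm0`.  `⟪fnOf x, ξ⟫`-type pairings: put `b x := ∑_{p} x(p) ξ(p)` (finite sum) for `x : n0 → ZG Γ`.  `cvA d0 ξ = 0` gives `b (y ᵥ* d0) = 0` (`pair_cvR`).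
  `x₁` from `surj`.  For `g : Γ`: `single g 1 • x₁ - ε(g) x₁` is `π`-fixed of augmentation `0`, so `b (single g 1 • x₁) = ε(g) b x₁`; but
  `b (single g 1 • x₁) = ∑ x₁(p) ξ(p.1, g p.2) → 0` along `cofinite` (`ξ ∈ ℓ²`, `Γ` infinite).  So `b x₁ = 0`, and `b x = 0` for all `π`-fixed `x` (`x - aug x • x₁`).
  Finally `cvA π ξ (i, g) = b (single g 1 • row-type vector of π)`: `(cvA π ξ)(i,g) = ∑_j ∑_h π_ij(h) ξ(j, g h) = b (single g 1 • (e_i ᵥ* π))`, and `e_i ᵥ* π` is `π`-fixed.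
* `harm_transfer`.  `ζ := cvRL f1 ξ` satisfies `cvR d0' ζ = 0` (`cf0`).  `W := closure (range (cvRL d1'))`; `ζ = ζ_W + ζ_⊥`; `ζ_⊥` is harmonic (`cvAL d1' ζ_⊥ = 0` by `cvRL_inner`;
  `cvRL d0'` kills `W` by `d1' * d0' = 0` and continuity), so `ζ ∈ W`; `cvRL g1` maps `range (cvRL d1')` into `range (cvRL d1)` (`cg1`), so
  `ξ = cvRL g1 ζ + cvRL h0 (cvRL d0 ξ) + cvRL d1 (cvRL h1 ξ) ∈ closure (range (cvRL d1))`, and `ξ ⟂ range (cvRL d1)`.
* `harm_cay`.  Real and imaginary part (`cvR_hom`, `cvA_hom` with `Complex.reAddGroupHom`, `imAddGroupHom`).  For real `ζ = ofEdge c`: `cobd c = 0` (`cvA_cay1`), `c = grad F`, `FinEnergy F`;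
  `InD0`: `φ` finitely supported with `∑ (grad F - grad φ)² < ε`; `∑ c · grad φ = ∑ (cvR cay0 ζ) · φ = 0` (`pair_cvR` or `cvRL_inner`); so `‖c‖² = ⟨c, grad F - grad φ⟩ ≤ ‖c‖ √ε`.
-/

set_option autoImplicit false
set_option linter.unusedSectionVars false

namespace Claimed.Agent.R309.S2

open Claims.C0492 Matrix
open scoped InnerProductSpace ENNReal

variable {Γ : Type} [Group Γ]
variable {n0 n1 n2 n0' n1' n2' : Type} [Fintype n0] [Fintype n1] [Fintype n2]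
  [Fintype n0'] [Fintype n1'] [Fintype n2'] [DecidableEq n0] [DecidableEq n1] [DecidableEq n2]
  [DecidableEq n0'] [DecidableEq n1'] [DecidableEq n2']
variable {d0 : Matrix n1 n0 (ZG Γ)} {d1 : Matrix n2 n1 (ZG Γ)} {π : Matrix n0 n0 (ZG Γ)} {w : n0 → ℤ}
variable {d0' : Matrix n1' n0' (ZG Γ)} {d1' : Matrix n2' n1' (ZG Γ)}

section Bt

variable {K : Type} [AddCommGroup K] {m n : Type} [Fintype m] [Fintype n]

/-- a vector as a one-row matrix -/
def rowM (x : n → ZG Γ) : Matrix Unit n (ZG Γ) := fun _ j => x j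

theorem rowM_vecMul (y : m → ZG Γ) (d : Matrix m n (ZG Γ)) : rowM (y ᵥ* d) = rowM y * d := rfl

/-- `g ↦ ∑_j ∑_h x_j(h) ξ(j, g h)` -/
noncomputable def bt (ξ : n × Γ → K) (x : n → ZG Γ) : Γ → K := fun g => cvA (rowM x) ξ ((), g)

theorem bt_eq (ξ : n × Γ → K) (x : n → ZG Γ) : bt ξ x = ∑ j, ra (zstar (x j)) (fun g => ξ (j, g)) := by
  funext g
  rw [Finset.sum_apply]
  rfl

theorem bt_smul (ξ : n × Γ → K) (a : ZG Γ) (x : n → ZG Γ) : bt ξ (a • x) = ra (zstar a) (bt ξ x) := by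
  rw [bt_eq, bt_eq, ra_sum_right]
  refine Finset.sum_congr rfl fun j _ => ?_
  rw [Pi.smul_apply, smul_eq_mul, zstar_mul, ra_mul]

theorem bt_sub (ξ : n × Γ → K) (x y : n → ZG Γ) : bt ξ (x - y) = bt ξ x - bt ξ y := by
  rw [bt_eq, bt_eq, bt_eq, ← Finset.sum_sub_distrib]
  refine Finset.sum_congr rfl fun j _ => ?_
  rw [Pi.sub_apply, zstar_sub, ra_sub_left]

theorem bt_vecMul (ξ : n × Γ → K) (d : Matrix m n (ZG Γ)) (h : cvA d ξ = 0) (y : m → ZG Γ) :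
    bt ξ (y ᵥ* d) = 0 := by
  funext g
  change cvA (rowM (y ᵥ* d)) ξ ((), g) = 0
  rw [rowM_vecMul, cvA_mul, h, cvA_zero]
  rfl

theorem cvA_eq_bt (B : Matrix m n (ZG Γ)) (ξ : n × Γ → K) (i : m) (g : Γ) : cvA B ξ (i, g) = bt ξ (B i) g := rfl

end Bt

/-- degree 0 -/
theorem harm0 [Infinite Γ] {ε : Γ →* ℤˣ} (hP : IsPartRes (augE ε) d0 d1 π w) (ξ : L2 n0 Γ)
    (h : cvA d0 (fun p => ξ p) = 0) : cvA π (fun p => ξ p) = 0 := by
  have aug_smul : ∀ (a : ZG Γ) (x : n0 → ZG Γ),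
      ∑ i, augE ε ((a • x) i) * w i = augE ε a * ∑ i, augE ε (x i) * w i := by
    intro a x
    rw [Finset.mul_sum]
    refine Finset.sum_congr rfl fun i _ => ?_
    rw [Pi.smul_apply, smul_eq_mul, map_mul, mul_assoc]
  have aug_sub : ∀ (x y : n0 → ZG Γ),
      ∑ i, augE ε ((x - y) i) * w i = ∑ i, augE ε (x i) * w i - ∑ i, augE ε (y i) * w i := by
    intro x y
    rw [← Finset.sum_sub_distrib]
    refine Finset.sum_congr rfl fun i _ => ?_
    rw [Pi.sub_apply, map_sub, sub_mul]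
  have key : ∀ x : n0 → ZG Γ, x ᵥ* π = x → ∑ i, augE ε (x i) * w i = 0 → bt (fun p => ξ p) x = 0 := by
    intro x hx h0
    obtain ⟨y, rfl⟩ := hP.ex0 x hx h0
    exact bt_vecMul _ d0 h y
  obtain ⟨x₁, hx₁, hx₁'⟩ := hP.surj
  have fix_smul : ∀ (a : ZG Γ) (x : n0 → ZG Γ), x ᵥ* π = x → (a • x) ᵥ* π = a • x := by
    intro a x hx
    rw [Matrix.smul_vecMul, hx]
  have inv : ∀ g k : Γ, bt (fun p => ξ p) x₁ (k * g) = ((ε g : ℤˣ) : ℤ) • bt (fun p => ξ p) x₁ k := by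
    intro g k
    have h1 := key ((MonoidAlgebra.single g 1 - MonoidAlgebra.single 1 ((ε g : ℤˣ) : ℤ)) • x₁)
      (fix_smul _ _ hx₁) (by
        rw [aug_smul, map_sub, augE_single, augE_single, map_one]; simp)
    rw [bt_smul, zstar_sub, zstar_single, zstar_single, ra_sub_left] at h1
    have h2 := congrFun h1 k
    rw [Pi.sub_apply, ra_single, ra_single, inv_inv, inv_one, inv_one, mul_one, one_smul, Pi.zero_apply,
      sub_eq_zero] at h2
    exact h2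
  -- the `ℓ²` function `bt ξ x₁`
  let u : lp (fun _ : Γ => ℂ) 2 := l2T (fun _ => True) (fun g : Γ => (((), g) : Unit × Γ))
    (fun a b _ _ hab => (Prod.mk.inj hab).2) (cvAL (rowM x₁) ξ)
  have hu : ∀ g, u g = bt (fun p => ξ p) x₁ g := by
    intro g
    change (l2T _ _ _ (cvAL (rowM x₁) ξ)) g = _
    rw [l2T_apply, if_pos trivial]
    exact congrFun (cvAL_coe (rowM x₁) ξ) ((), g)
  have hu0 : u = 0 := by
    refine l2_const_zero u fun g x => ?_
    rw [hu, hu, inv]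
    rcases Int.units_eq_one_or (ε g) with h | h
    · rw [h]; simp
    · rw [h]; simp
  have hb1 : bt (fun p => ξ p) x₁ = 0 := by
    funext g
    rw [← hu, hu0]
    rfl
  have all : ∀ x : n0 → ZG Γ, x ᵥ* π = x → bt (fun p => ξ p) x = 0 := by
    intro x hx
    have h1 := key (x - (MonoidAlgebra.single (1 : Γ) (∑ i, augE ε (x i) * w i) : ZG Γ) • x₁)
      (by rw [Matrix.sub_vecMul, hx, fix_smul _ _ hx₁])
      (by rw [aug_sub, aug_smul, augE_single, map_one, hx₁']; simp)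
    rw [bt_sub, bt_smul, hb1, ra_zero_right, sub_zero] at h1
    exact h1
  funext p
  obtain ⟨i, g⟩ := p
  rw [cvA_eq_bt, all (π i) (by
    have := congrFun hP.ππ i
    exact this)]
  rfl

theorem harm_iff (ξ : L2 n1 Γ) : Harm d0 d1 ξ ↔ cvRL d0 ξ = 0 ∧ cvAL d1 ξ = 0 := by
  rw [cvRL_eq_zero_iff, cvAL_eq_zero_iff]; rfl

/-- the closure of the range of `cvRL d` -/
noncomputable def clR {m n : Type} [Fintype m] [Fintype n] (d : Matrix m n (ZG Γ)) : Submodule ℂ (L2 n Γ) :=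
  (LinearMap.range (cvRL d).toLinearMap).topologicalClosure

theorem cvRL_mem_clR {m n : Type} [Fintype m] [Fintype n] (d : Matrix m n (ZG Γ)) (ω : L2 m Γ) :
    cvRL d ω ∈ clR d :=
  Submodule.le_topologicalClosure _ ⟨ω, rfl⟩

/-- a closed condition which holds on the range holds on `clR` -/
theorem clR_le {m n : Type} [Fintype m] [Fintype n] (d : Matrix m n (ZG Γ)) (V : Submodule ℂ (L2 n Γ))
    (hV : IsClosed (V : Set (L2 n Γ))) (h : ∀ ω, cvRL d ω ∈ V) : clR d ≤ V :=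
  Submodule.topologicalClosure_minimal _ (by rintro _ ⟨ω, rfl⟩; exact h ω) hV

theorem mem_clR_orth {m n : Type} [Fintype m] [Fintype n] (d : Matrix m n (ZG Γ)) (ξ : L2 n Γ) :
    ξ ∈ (clR d)ᗮ ↔ cvAL d ξ = 0 := by
  constructor
  · intro h
    rw [← inner_self_eq_zero (𝕜 := ℂ), ← cvRL_inner]
    exact (Submodule.mem_orthogonal _ _).1 h _ (cvRL_mem_clR d _)
  · intro h
    have : clR d ≤ (ℂ ∙ ξ)ᗮ := by
      refine clR_le d _ (Submodule.isClosed_orthogonal _) fun ω => ?_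
      rw [Submodule.mem_orthogonal_singleton_iff_inner_left, cvRL_inner, h, inner_zero_right]
    rw [Submodule.mem_orthogonal]
    intro u hu
    exact Submodule.mem_orthogonal_singleton_iff_inner_left.1 (this hu)

theorem harm_transfer (c : Cmp d0 d1 d0' d1') (h' : d1' * d0' = 0)
    (hQ : ∀ ζ : L2 n1' Γ, Harm d0' d1' ζ → ζ = 0) : ∀ ξ : L2 n1 Γ, Harm d0 d1 ξ → ξ = 0 := by
  intro ξ hξ
  rw [harm_iff] at hξ
  obtain ⟨hξ0, hξ1⟩ := hξ
  -- ζ
  have hζ0 : cvRL d0' (cvRL c.f1 ξ) = 0 := by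
    rw [← cvRL_mul, ← c.cf0, cvRL_mul, hξ0, map_zero]
  have : CompleteSpace (clR d1') := (Submodule.isClosed_topologicalClosure _).completeSpace_coe
  obtain ⟨y, hy, z, hz, hyz⟩ := Submodule.exists_add_mem_mem_orthogonal (K := clR d1') (cvRL c.f1 ξ)
  have hker : clR d1' ≤ LinearMap.ker (cvRL d0').toLinearMap := by
    refine clR_le d1' _ (cvRL d0').isClosed_ker fun ω => ?_
    change cvRL d0' (cvRL d1' ω) = 0
    rw [← cvRL_mul, h', cvRL_mat_zero]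
  have hy0 : cvRL d0' y = 0 := hker hy
  have hz0 : cvRL d0' z = 0 := by
    have := hζ0
    rw [hyz, map_add, hy0, zero_add] at this
    exact this
  have hzz : z = 0 := hQ z ((harm_iff z).2 ⟨hz0, (mem_clR_orth d1' z).1 hz⟩)
  have hζW : cvRL c.f1 ξ ∈ clR d1' := by rw [hyz, hzz, add_zero]; exact hy
  have hmap : clR d1' ≤ (clR d1).comap (cvRL c.g1).toLinearMap := by
    refine clR_le d1' _ ?_ fun ω => ?_
    · exact (Submodule.isClosed_topologicalClosure _).preimage (cvRL c.g1).continuous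
    · change cvRL c.g1 (cvRL d1' ω) ∈ clR d1
      rw [← cvRL_mul, c.cg1, cvRL_mul]
      exact cvRL_mem_clR _ _
  have h1 : cvRL c.g1 (cvRL c.f1 ξ) ∈ clR d1 := hmap hζW
  have h2 : ξ - cvRL c.g1 (cvRL c.f1 ξ) = cvRL d1 (cvRL c.h1 ξ) := by
    have := congrArg (fun M => cvRL M ξ) c.hom
    simp only [cvRL_mat_sub, cvRL_mat_add, cvRL_mat_one, cvRL_mul, hξ0, map_zero, zero_add] at this
    exact this
  have h3 : ξ ∈ clR d1 := by
    have : ξ = cvRL c.g1 (cvRL c.f1 ξ) + cvRL d1 (cvRL c.h1 ξ) := by rw [← h2]; abel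
    rw [this]
    exact (clR d1).add_mem h1 (cvRL_mem_clR _ _)
  have h4 : ξ ∈ (clR d1)ᗮ := (mem_clR_orth d1 ξ).2 hξ1
  exact (Submodule.mem_bot ℂ).1 ((clR d1).inf_orthogonal_eq_bot ▸ ⟨h3, h4⟩)

theorem harm_twist (ε : Γ →* ℤˣ) (h : ∀ ζ : L2 n1 Γ, Harm d0 d1 ζ → ζ = 0) :
    ∀ ζ : L2 n1 Γ, Harm (d0.map (twE ε)) (d1.map (twE ε)) ζ → ζ = 0 := by
  intro ζ hζ
  obtain ⟨ζ', hζ'⟩ := exists_twL ε ζ
  have hmm : ∀ {a b : Type} (B : Matrix a b (ZG Γ)), (B.map (twE ε)).map (twE ε) = B := fun B =>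
    Matrix.ext fun i j => twE_twE ε (B i j)
  have tw0 : ∀ {a : Type}, twF ε (0 : a × Γ → ℂ) = 0 := by
    intro a
    funext p
    exact smul_zero _
  have H : Harm d0 d1 ζ' := by
    constructor
    · rw [hζ']
      have := cvR_tw ε (d0.map (twE ε)) (fun p => ζ p)
      rw [hmm, hζ.1, tw0] at this
      exact this
    · rw [hζ']
      have := cvA_tw ε (d1.map (twE ε)) (fun p => ζ p)
      rw [hmm, hζ.2, tw0] at this
      exact this
  have h0 := h ζ' H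
  have h1 : twF ε (fun p => ζ p) = 0 := by
    rw [← hζ', h0]
    funext p
    rfl
  have h2 : (fun p => ζ p) = 0 := by
    rw [← twF_twF ε (fun p => ζ p), h1, tw0]
  exact lp.ext h2

theorem harm_adj (D2 : Matrix n1 n2 (ZG Γ)) (D3 : Matrix n0 n1 (ZG Γ)) (ξ : L2 n1 Γ) :
    Harm (adj D3) (adj D2) ξ ↔ Harm D2 D3 ξ := by
  unfold Harm
  rw [cvR_adj, cvA_adj, and_comm]

/-- a vector in the range of `cvRL d` which is killed by `cvA d` vanishes -/
theorem eq_zero_of_range {m n : Type} [Fintype m] [Fintype n] (d : Matrix m n (ZG Γ)) (ω : L2 m Γ)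
    (h : cvA d (fun p => cvRL d ω p) = 0) : cvRL d ω = 0 := by
  rw [← cvAL_eq_zero_iff] at h
  rw [← inner_self_eq_zero (𝕜 := ℂ), cvRL_inner, h, inner_zero_right]

theorem l2_rpow_two (x : ℝ) : x ^ (2 : ℝ≥0∞).toReal = x ^ 2 := by
  rw [ENNReal.toReal_ofNat, Real.rpow_two]

theorem l2_summable_sq {X : Type} (f : lp (fun _ : X => ℂ) 2) : Summable fun i => ‖f i‖ ^ 2 := by
  have := (lp.memℓp f).summable l2_two_pos
  simpa only [l2_rpow_two] using this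

theorem l2_norm_sq {X : Type} (f : lp (fun _ : X => ℂ) 2) : ‖f‖ ^ 2 = ∑' i, ‖f i‖ ^ 2 := by
  have := lp.norm_rpow_eq_tsum l2_two_pos f
  simpa only [l2_rpow_two] using this

theorem l2_norm_ofReal_sq (x : ℝ) : ‖(x : ℂ)‖ ^ 2 = x ^ 2 := by
  rw [Complex.norm_real, Real.norm_eq_abs, sq_abs]

theorem memlp_ofReal {X : Type} (z : X → ℝ) (hz : Summable fun p => z p ^ 2) :
    Memℓp (fun p => (z p : ℂ)) 2 := by
  refine memℓp_gen ?_
  simpa only [l2_rpow_two, l2_norm_ofReal_sq] using hz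

/-- a square summable real function as an element of the complex `ℓ²` -/
noncomputable def l2R {X : Type} (z : X → ℝ) (hz : Summable fun p => z p ^ 2) : lp (fun _ : X => ℂ) 2 :=
  ⟨fun p => (z p : ℂ), memlp_ofReal z hz⟩

theorem l2R_apply {X : Type} (z : X → ℝ) (hz : Summable fun p => z p ^ 2) (p : X) :
    l2R z hz p = (z p : ℂ) := rfl

theorem harm_cay_real (𝔖 : GenSet Γ) (hSC : SC 𝔖 ℝ) (hD0 : ∀ F : Γ → ℝ, FinEnergy 𝔖 F → InD0 𝔖 F)
    (z : 𝔖.Gen × Γ → ℝ) (hz : Summable fun p => z p ^ 2) (h0 : cvR (cay0 𝔖) z = 0)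
    (h1 : cvA (cay1 𝔖) z = 0) : z = 0 := by
  -- the potential
  have hc : IsCocycle (fun e : 𝔖.Edge => z (e.2, e.1)) := by
    rw [isCocycle_iff]
    have h2 := cvA_cay1 𝔖 (fun e : 𝔖.Edge => z (e.2, e.1))
    have h3 : ofEdge (fun e : 𝔖.Edge => z (e.2, e.1)) = z := rfl
    rw [h3, h1] at h2
    have h4 : cobd (fun e : 𝔖.Edge => z (e.2, e.1)) = 0 := ofTri_injective (h2.symm.trans rfl)
    intro t
    rw [h4]
    rfl
  obtain ⟨F, hF⟩ := hSC _ hc
  have hFz : ∀ p : 𝔖.Gen × Γ, z p = grad F ((p.2, p.1) : 𝔖.Edge) := fun p => hF (p.2, p.1)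
  have hFE : FinEnergy 𝔖 F := by
    unfold FinEnergy
    rw [← (Equiv.prodComm 𝔖.Gen Γ).summable_iff]
    refine hz.congr fun p => ?_
    rw [hFz]
    rfl
  by_contra hne
  -- the vector
  have hZ0 : cvRL (cay0 𝔖) (l2R z hz) = 0 := by
    rw [cvRL_eq_zero_iff]
    have := cvR_hom Complex.ofRealHom.toAddMonoidHom (cay0 𝔖) z
    rw [h0] at this
    refine Eq.trans this ?_
    funext p
    exact map_zero _
  have hpos : 0 < ‖l2R z hz‖ ^ 2 := by
    have : l2R z hz ≠ 0 := by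
      intro h
      apply hne
      funext p
      have := congrArg (fun f : lp (fun _ : 𝔖.Gen × Γ => ℂ) 2 => f p) h
      exact Complex.ofReal_eq_zero.1 this
    positivity
  obtain ⟨φ, hφ, hlt⟩ := hD0 F hFE _ hpos
  have hφs : Summable fun p : Unit × Γ => (ofVert φ p) ^ 2 := by
    refine summable_of_hasFiniteSupport (((ofVert_FS (φ := φ)).2 hφ).subset ?_)
    intro p hp h
    exact hp (by simp only [h]; norm_num)
  have hη : ∀ p : 𝔖.Gen × Γ, cvAL (cay0 𝔖) (l2R (ofVert φ) hφs) p = ((grad φ ((p.2, p.1) : 𝔖.Edge) : ℝ) : ℂ) := by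
    intro p
    have e1 := congrFun (cvAL_coe (cay0 𝔖) (l2R (ofVert φ) hφs)) p
    have e2 := congrFun (cvA_hom Complex.ofRealHom.toAddMonoidHom (cay0 𝔖) (ofVert φ)) p
    rw [cvA_cay0] at e2
    exact e1.trans e2
  have horth : ⟪l2R z hz, cvAL (cay0 𝔖) (l2R (ofVert φ) hφs)⟫_ℂ = 0 := by
    rw [← cvRL_inner, hZ0, inner_zero_left]
  have hn := norm_sub_sq (𝕜 := ℂ) (l2R z hz) (cvAL (cay0 𝔖) (l2R (ofVert φ) hφs))
  rw [horth] at hn
  have hn2 : ‖l2R z hz - cvAL (cay0 𝔖) (l2R (ofVert φ) hφs)‖ ^ 2 =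
      ∑' e : 𝔖.Edge, (grad F e - grad φ e) ^ 2 := by
    rw [l2_norm_sq, ← (Equiv.prodComm 𝔖.Gen Γ).tsum_eq]
    refine tsum_congr fun p => ?_
    rw [lp.coeFn_sub, Pi.sub_apply, hη, l2R_apply, hFz, ← Complex.ofReal_sub, l2_norm_ofReal_sq]
    rfl
  rw [hn2] at hn
  have : 0 ≤ ‖cvAL (cay0 𝔖) (l2R (ofVert φ) hφs)‖ ^ 2 := by positivity
  simp only [map_zero, mul_zero, sub_zero] at hn
  linarith

theorem harm_cay (𝔖 : GenSet Γ) (hSC : SC 𝔖 ℝ) (hD0 : ∀ F : Γ → ℝ, FinEnergy 𝔖 F → InD0 𝔖 F) :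
    ∀ ζ : L2 𝔖.Gen Γ, Harm (cay0 𝔖) (cay1 𝔖) ζ → ζ = 0 := by
  intro ζ hζ
  have hs := l2_summable_sq ζ
  have hre : (fun p => (ζ p).re) = 0 := by
    refine harm_cay_real 𝔖 hSC hD0 _ ?_ ?_ ?_
    · refine Summable.of_nonneg_of_le (fun p => sq_nonneg _) (fun p => ?_) hs
      rw [Complex.sq_norm, Complex.normSq_apply]
      nlinarith [mul_self_nonneg (ζ p).im]
    · have := cvR_hom Complex.reAddGroupHom (cay0 𝔖) (fun p => ζ p)
      rw [hζ.1] at this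
      exact this
    · have := cvA_hom Complex.reAddGroupHom (cay1 𝔖) (fun p => ζ p)
      rw [hζ.2] at this
      exact this
  have him : (fun p => (ζ p).im) = 0 := by
    refine harm_cay_real 𝔖 hSC hD0 _ ?_ ?_ ?_
    · refine Summable.of_nonneg_of_le (fun p => sq_nonneg _) (fun p => ?_) hs
      rw [Complex.sq_norm, Complex.normSq_apply]
      nlinarith [mul_self_nonneg (ζ p).re]
    · have := cvR_hom Complex.imAddGroupHom (cay0 𝔖) (fun p => ζ p)
      rw [hζ.1] at this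
      exact this
    · have := cvA_hom Complex.imAddGroupHom (cay1 𝔖) (fun p => ζ p)
      rw [hζ.2] at this
      exact this
  refine lp.ext (funext fun p => ?_)
  exact Complex.ext (congrFun hre p) (congrFun him p)

end Claimed.Agent.R309.S2
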