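import Claimed.Agent.R309.S2.Cay
import Claimed.Agent.R309.S2.Cmp

/-!
# Row 309 / S2 / Mod2: `H^i(Γ; F₂Γ) = 0` for `i = 1, 2` on the dual complex of `R`, transfer to the triangle complex: `OneEnded`, `H2c`.
PACKAGE S2-Mod2 (helper211): SORRY FREE (on top of the statements of Conv, Cay, Cmp).

* `int_ex`: `η = fnOf (zstar ∘ y)` (`exists_fnOf`, `zstar_zstar`), `cvA_fnOf`, `fnOf_injective`, `PD4.ex`.
* `mod2_ex` (degree `i = k+1`): lift `η` to `η̃ : _ → ℤ` with values in `{0,1}`, `FS`.  `cvA (D (k+1)) η̃` is `≡ 0 mod 2` (`cvA_hom` with `Int.castAddHom (ZMod 2)`), `= 2 ω`, `ω` FS;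
  `2 • cvA (D (k+2)) ω = cvA (D (k+2) * D (k+1)) η̃ = 0`, so `cvA (D (k+2)) ω = 0`; `int_ex (k+1)`: `ω = cvA (D (k+1)) u`; `cvA (D (k+1)) (η̃ - 2 u) = 0`; `int_ex k`: `η̃ - 2u = cvA (D k) ζ̃`; reduce mod 2.
* `s2_oneEnded`: `u := ofVert (indicator of W)`, `c := cvA cay0 u = ofEdge (grad ..)` is FS (hypothesis + the reversal `(g,s) ↦ (g s, s⁻¹)`), `cvA cay1 c = 0`.
  `c' := cvA g1 c`, `cvA (D 1) c' = cvA g2 (cvA cay1 c) = 0` (`cg1`), `mod2_ex 0`: `c' = cvA (D 0) ζ`.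
  `c = cvA (f1 * g1 + cay0 * h0 + h1 * cay1) c = cvA cay0 (cvA f0 ζ + cvA h0 c)` (`hom`, `cf0`).  So `grad (1_W - v) = 0`, `v` FS; `grad_eq_zero`; `1_W = v` or `1_W = v + 1`.
* `s2_h2c`: `β := cvA cay1 (ofEdge α)` FS.  `β' := cvA g2 β`, `cvA (D 2) β' = cvA (D 2 * D 1 * g1) (ofEdge α) = 0` (`cg1`, `res_DD`), `mod2_ex 1`: `β' = cvA (D 1) γ`.
  `X := 1 - f2 * g2 - cay1 * h1`, `X * cay1 = 0` (`Cmp.deg2`), so `cvA X β = 0` and `β = cvA f2 β' + cvA cay1 (cvA h1 β) = cvA cay1 (cvA f1 γ + cvA h1 β)` (`cf1`).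
-/

set_option autoImplicit false
set_option linter.unusedSectionVars false

namespace Claimed.Agent.R309.S2

open Claims.C0492 Matrix

variable {Γ : Type} [Group Γ] {R : FiniteFreeResolution Γ}

theorem int_ex (h : PD4 R) (k : ℕ) (hk : k ≠ 3) (η : Fin (R.r (k + 1)) × Γ → ℤ) (hη : FS η)
    (h0 : cvA (R.D (k + 1)) η = 0) : ∃ ζ : Fin (R.r k) × Γ → ℤ, FS ζ ∧ η = cvA (R.D k) ζ := by
  obtain ⟨x, rfl⟩ := exists_fnOf hη
  have hx : x = fun j => zstar (zstar (x j)) := by funext j; rw [zstar_zstar]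
  rw [hx, cvA_fnOf] at h0
  have h1 : R.D (k + 1) *ᵥ (fun j => zstar (x j)) = 0 := by
    have := fnOf_injective (h0.trans fnOf_zero.symm)
    funext i
    exact zstar_eq_zero.1 (congrFun this i)
  obtain ⟨z, hz⟩ := h.ex k hk _ h1
  refine ⟨fnOf (fun j => zstar (z j)), fnOf_FS _, ?_⟩
  rw [cvA_fnOf, ← hz]
  conv_lhs => rw [hx]

theorem FS.mono {X K K' : Type} [AddCommGroup K] [AddCommGroup K'] {ξ : X → K} {ξ' : X → K'} (h : FS ξ)
    (h' : ∀ p, ξ p = 0 → ξ' p = 0) : FS ξ' := by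
  refine Set.Finite.subset h fun p hp => ?_
  rw [Function.mem_support] at hp ⊢
  exact fun h0 => hp (h' p h0)

theorem mod2_ex (h : PD4 R) (k : ℕ) (hk : k ≠ 3) (hk' : k + 1 ≠ 3) (η : Fin (R.r (k + 1)) × Γ → ZMod 2) (hη : FS η)
    (h0 : cvA (R.D (k + 1)) η = 0) : ∃ ζ : Fin (R.r k) × Γ → ZMod 2, FS ζ ∧ η = cvA (R.D k) ζ := by
  let φ : ℤ →+ ZMod 2 := Int.castAddHom (ZMod 2)
  -- integral lift
  let η' : Fin (R.r (k + 1)) × Γ → ℤ := fun p => (η p).cast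
  have hη'φ : (fun p => φ (η' p)) = η := by
    funext p
    exact ZMod.intCast_zmod_cast (η p)
  have hη'FS : FS η' := hη.mono fun p hp => by
    show ((η p).cast : ℤ) = 0
    rw [hp]; rfl
  set θ := cvA (R.D (k + 1)) η' with hθ
  have hθFS : FS θ := cvA_FS _ hη'FS
  have hθ0 : ∀ p, (2 : ℤ) ∣ θ p := by
    intro p
    have h1 := cvA_hom φ (R.D (k + 1)) η'
    rw [hη'φ, h0] at h1
    have h2 : ((θ p : ℤ) : ZMod 2) = 0 := (congrFun h1 p).symm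
    exact (ZMod.intCast_zmod_eq_zero_iff_dvd (θ p) 2).1 h2
  choose ω hω using hθ0
  have hωθ : θ = ω + ω := by
    funext p
    rw [hω p, Pi.add_apply]; ring
  have hωFS : FS ω := hθFS.mono fun p hp => by
    have := hω p
    rw [hp] at this
    omega
  have hω0 : cvA (R.D (k + 1 + 1)) ω = 0 := by
    have h1 : cvA (R.D (k + 1 + 1)) θ = 0 := by
      rw [hθ, ← cvA_mul, res_DD, cvA_mat_zero]
    rw [hωθ, cvA_add] at h1
    funext p
    have := congrFun h1 p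
    simp only [Pi.add_apply, Pi.zero_apply] at this ⊢
    omega
  obtain ⟨u, huFS, hu⟩ := int_ex h (k + 1) hk' ω hωFS hω0
  have h3 : cvA (R.D (k + 1)) (η' - (u + u)) = 0 := by
    rw [cvA_sub, cvA_add, ← hu, ← hθ, hωθ, sub_self]
  obtain ⟨ζ, hζFS, hζ⟩ := int_ex h k hk (η' - (u + u)) (hη'FS.sub (huFS.add huFS)) h3
  refine ⟨fun p => φ (ζ p), hζFS.mono fun p hp => by rw [hp, map_zero], ?_⟩
  rw [cvA_hom, ← hζ, ← hη'φ]
  funext p
  show φ (η' p) = φ (η' p - (u p + u p))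
  rw [map_sub, map_add]
  have : φ (u p) + φ (u p) = 0 := by
    have h2 : ∀ a : ZMod 2, a + a = 0 := by decide
    exact h2 _
  rw [this, sub_zero]

theorem ofEdge_injective {𝔖 : GenSet Γ} {K : Type} : Function.Injective (ofEdge : (𝔖.Edge → K) → 𝔖.Gen × Γ → K) := by
  intro c c' h
  funext e
  exact congrFun h (e.2, e.1)

theorem s2_oneEnded (h : PD4 R) (𝔖 : GenSet Γ) (c : Cmp (cay0 𝔖) (cay1 𝔖) (R.D 0) (R.D 1)) : OneEnded 𝔖 := by
  classical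
  intro W hW
  let φW : Γ → ZMod 2 := fun g => if g ∈ W then 1 else 0
  -- the coboundary of `W` is finitely supported
  let rev : 𝔖.Edge → 𝔖.Edge := fun e => (e.1 * e.2.1, ⟨e.2.1⁻¹, 𝔖.inv_mem _ e.2.2⟩)
  have hsupp : (Function.support (grad φW : 𝔖.Edge → ZMod 2)).Finite := by
    refine Set.Finite.subset (hW.union (hW.image rev)) fun e he => ?_
    rw [Function.mem_support] at he
    by_cases h1 : esrc e ∈ W <;> by_cases h2 : etgt e ∈ W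
    · exact absurd (by simp [grad, φW, h1, h2]) he
    · exact Or.inl ⟨h1, h2⟩
    · refine Or.inr ⟨rev e, ⟨h2, ?_⟩, ?_⟩
      · show e.1 * e.2.1 * e.2.1⁻¹ ∉ W
        rw [mul_inv_cancel_right]; exact h1
      · apply Prod.ext
        · show e.1 * e.2.1 * e.2.1⁻¹ = e.1
          rw [mul_inv_cancel_right]
        · apply Subtype.ext
          show (e.2.1⁻¹)⁻¹ = e.2.1
          rw [inv_inv]
    · exact absurd (by simp [grad, φW, h1, h2]) he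
  set ζ : 𝔖.Gen × Γ → ZMod 2 := ofEdge (grad φW) with hζ
  have hζFS : FS ζ := ofEdge_FS.2 hsupp
  have hζ0 : cvA (cay0 𝔖) (ofVert φW) = ζ := cvA_cay0 𝔖 φW
  have hζ1 : cvA (cay1 𝔖) ζ = 0 := by
    rw [← hζ0, ← cvA_mul, cay1_mul_cay0, cvA_mat_zero]
  have h1 : cvA (R.D 1) (cvA c.g1 ζ) = 0 := by
    rw [← cvA_mul, c.cg1, cvA_mul, hζ1, cvA_zero]
  obtain ⟨ξ₀, hξ₀FS, hξ₀⟩ := mod2_ex h 0 (by norm_num) (by norm_num) _ (cvA_FS _ hζFS) h1
  have hone : (1 : Matrix 𝔖.Gen 𝔖.Gen (ZG Γ)) = c.f1 * c.g1 + (cay0 𝔖 * c.h0 + c.h1 * cay1 𝔖) := by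
    rw [← c.hom]; abel
  have h2 : ζ = cvA (cay0 𝔖) (cvA c.f0 ξ₀ + cvA c.h0 ζ) := by
    conv_lhs => rw [← cvA_mat_one ζ, hone]
    rw [cvA_mat_add, cvA_mat_add, cvA_mul, cvA_mul, cvA_mul, hζ1, cvA_zero, add_zero, hξ₀, ← cvA_mul, ← c.cf0,
      cvA_mul, cvA_add]
  obtain ⟨ψ, hψ⟩ := exists_ofVert (cvA c.f0 ξ₀ + cvA c.h0 ζ)
  have hψFS : (Function.support ψ).Finite := by
    rw [← ofVert_FS, ← hψ]
    exact (cvA_FS _ hξ₀FS).add (cvA_FS _ hζFS)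
  rw [hψ, cvA_cay0] at h2
  have h3 : (grad φW : 𝔖.Edge → ZMod 2) = grad ψ := ofEdge_injective h2
  have h4 : ∀ g, (φW - ψ) g = (φW - ψ) 1 := fun g => grad_eq_zero (𝔖 := 𝔖) (fun e => by
    have := congrFun h3 e
    simp only [grad, Pi.sub_apply] at this ⊢
    rw [sub_sub_sub_comm, this, sub_self]) g
  have h5 : ∀ a : ZMod 2, a = 0 ∨ a = 1 := by decide
  rcases h5 ((φW - ψ) 1) with h6 | h6
  · left
    refine hψFS.subset fun g hg => ?_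
    have := h4 g
    rw [h6, Pi.sub_apply, sub_eq_zero] at this
    rw [Function.mem_support, ← this]
    simp [φW, hg]
  · right
    refine hψFS.subset fun g hg => ?_
    have := h4 g
    rw [h6, Pi.sub_apply] at this
    have hg' : φW g = 0 := by simp [φW, show g ∉ W from hg]
    rw [hg', zero_sub] at this
    rw [Function.mem_support]
    intro h0
    rw [h0] at this
    exact absurd this (by decide)

theorem s2_h2c (h : PD4 R) (𝔖 : GenSet Γ) (c : Cmp (cay0 𝔖) (cay1 𝔖) (R.D 0) (R.D 1)) : H2c 𝔖 := by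
  intro α hα
  set β : 𝔖.Rel × Γ → ZMod 2 := cvA (cay1 𝔖) (ofEdge α) with hβ
  have hβ' : β = ofTri (cobd α) := cvA_cay1 𝔖 α
  have hβFS : FS β := by
    rw [hβ', ofTri_FS]
    exact hα
  have h1 : cvA (R.D 2) (cvA c.g2 β) = 0 := by
    rw [hβ, ← cvA_mul, ← cvA_mul, Matrix.mul_assoc, ← c.cg1, ← Matrix.mul_assoc, res_DD, Matrix.zero_mul,
      cvA_mat_zero]
  obtain ⟨γ, hγFS, hγ⟩ := mod2_ex h 1 (by norm_num) (by norm_num) _ (cvA_FS _ hβFS) h1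
  have hX : cvA (1 - c.f2 * c.g2 - cay1 𝔖 * c.h1) β = 0 := by
    rw [hβ, ← cvA_mul, c.deg2 (cay1_mul_cay0 𝔖), cvA_mat_zero]
  have h2 : β = cvA (cay1 𝔖) (cvA c.f1 γ + cvA c.h1 β) := by
    rw [cvA_mat_sub, cvA_mat_sub, cvA_mat_one, cvA_mul, cvA_mul, hγ, ← cvA_mul, ← c.cf1, cvA_mul, sub_sub,
      sub_eq_zero, ← cvA_add] at hX
    exact hX
  obtain ⟨η, hη⟩ := exists_ofEdge (cvA c.f1 γ + cvA c.h1 β)
  refine ⟨η, ?_, ?_⟩
  · rw [← ofEdge_FS, ← hη]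
    exact (cvA_FS _ hγFS).add (cvA_FS _ hβFS)
  · rw [hη, cvA_cay1, hβ'] at h2
    intro t
    exact (congrFun (ofTri_injective h2) t).symm

end Claimed.Agent.R309.S2
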