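import Claimed.Agent.R309.S2.Defs

/-!
# Row 309 / S2 / SC: a finitely presented group has a finite symmetric generating set whose triangle complex is "simply connected".
PACKAGE S2-SC (combinatorial group theory, needs only `R309/Defs.lean`).   Proof: helper63.

Plan.  `Group.IsFinitelyPresented.out`: `φ : FreeGroup (Fin n) →* Γ` onto, `ker φ = normalClosure T`, `T` finite.
`L :=` max word length (`FreeGroup.norm`) of the elements of `T` (and `≥ 1`);  `S := φ '' {w | norm w ≤ L}` (finite, symmetric, contains `1`, generates).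
Given a cocycle `c`:
* `c (g, 1) = 0` (triangle `(g,1,1)`), `c (g, s) + c (g s, s⁻¹) = 0`.
* act on `Γ × A`: a generator `x` acts by `(g, a) ↦ (g φ(x), a + c (g, φ x))`, a bijection; `FreeGroup.lift` of the INVERSES into
  `Equiv.Perm (Γ × A)`, `act w := (ρ w)⁻¹`, so that `act (w₁ w₂) = act w₂ ∘ act w₁`.
* for a word `w` of length `≤ L`: `act w (g, a) = (g φ w, a + c (g, φ w))` (induction on the length, cocycle condition).
* so every `t ∈ T` acts trivially (`φ t = 1`, `c (g,1) = 0`); the kernel of the action is normal, so `ker φ` acts trivially.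
* `F g := ` second coordinate of `act w (1, 0)` for any `w` with `φ w = g`: well defined; `c = grad F`.
-/

set_option autoImplicit false

namespace Claimed.Agent.R309.S2

open FreeGroup

section sc

variable {Γ : Type} [Group Γ] {n : ℕ}

/-- words of bounded norm form a finite set -/
theorem sc_finite_norm_le (L : ℕ) : {w : FreeGroup (Fin n) | FreeGroup.norm w ≤ L}.Finite := by
  have h : (toWord ⁻¹' {l : List (Fin n × Bool) | l.length ≤ L}).Finite :=
    (List.finite_length_le (Fin n × Bool) L).preimage (toWord_injective.injOn)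
  exact h

/-- the generating set: images of the words of norm `≤ L` -/
noncomputable def scGen (φ : FreeGroup (Fin n) →* Γ) (hφ : Function.Surjective φ) (L : ℕ) (hL : 1 ≤ L) : GenSet Γ where
  S := by
    classical
    exact ((sc_finite_norm_le (n := n) L).image φ).toFinset
  one_mem := by
    classical
    simp only [Set.Finite.mem_toFinset, Set.mem_image, Set.mem_ofPred_eq]
    exact ⟨1, by simp, _root_.map_one φ⟩
  inv_mem := by
    classical
    intro s hs
    simp only [Set.Finite.mem_toFinset, Set.mem_image, Set.mem_ofPred_eq] at hs ⊢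
    obtain ⟨w, hw, rfl⟩ := hs
    exact ⟨w⁻¹, by rwa [norm_inv_eq], _root_.map_inv φ w⟩
  closure_eq := by
    classical
    rw [eq_top_iff]
    intro g _
    obtain ⟨w, rfl⟩ := hφ g
    have hw : w ∈ Subgroup.closure (Set.range (of : Fin n → FreeGroup (Fin n))) := by
      rw [closure_range_of]; trivial
    have : Subgroup.closure (Set.range (of : Fin n → FreeGroup (Fin n))) ≤
        (Subgroup.closure ((((sc_finite_norm_le (n := n) L).image φ).toFinset : Finset Γ) : Set Γ)).comap φ := by
      rw [Subgroup.closure_le]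
      rintro _ ⟨i, rfl⟩
      refine Subgroup.subset_closure ?_
      simp only [Set.Finite.coe_toFinset, Set.mem_image, Set.mem_ofPred_eq]
      exact ⟨of i, by rw [norm_of]; exact hL, rfl⟩
    exact this hw

theorem sc_mem_gen (φ : FreeGroup (Fin n) →* Γ) (hφ : Function.Surjective φ) (L : ℕ) (hL : 1 ≤ L) (s : Γ) :
    s ∈ (scGen φ hφ L hL).S ↔ ∃ w, FreeGroup.norm w ≤ L ∧ φ w = s := by
  classical
  simp [scGen]

variable {A : Type} [AddCommGroup A]

/-- the move of one generator on `Γ × A` -/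
def scMove (cc : Γ → Γ → A) (s : Γ) : Equiv.Perm (Γ × A) where
  toFun x := (x.1 * s, x.2 + cc x.1 s)
  invFun x := (x.1 * s⁻¹, x.2 - cc (x.1 * s⁻¹) s)
  left_inv x := by simp
  right_inv x := by simp

/-- the representation (inverse moves, so that it is a homomorphism) -/
noncomputable def scRho (φ : FreeGroup (Fin n) →* Γ) (cc : Γ → Γ → A) : FreeGroup (Fin n) →* Equiv.Perm (Γ × A) :=
  FreeGroup.lift fun i => (scMove cc (φ (of i)))⁻¹

/-- the right action -/
noncomputable def scAct (φ : FreeGroup (Fin n) →* Γ) (cc : Γ → Γ → A) (w : FreeGroup (Fin n)) (x : Γ × A) : Γ × A :=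
  (scRho φ cc w)⁻¹ x

theorem scAct_one (φ : FreeGroup (Fin n) →* Γ) (cc : Γ → Γ → A) (x : Γ × A) : scAct φ cc 1 x = x := by
  simp [scAct]

theorem scAct_mul (φ : FreeGroup (Fin n) →* Γ) (cc : Γ → Γ → A) (w₁ w₂ : FreeGroup (Fin n)) (x : Γ × A) :
    scAct φ cc (w₁ * w₂) x = scAct φ cc w₂ (scAct φ cc w₁ x) := by
  simp [scAct, mul_inv_rev, Equiv.Perm.mul_apply]

theorem scAct_of (φ : FreeGroup (Fin n) →* Γ) (cc : Γ → Γ → A) (i : Fin n) (x : Γ × A) :
    scAct φ cc (of i) x = (x.1 * φ (of i), x.2 + cc x.1 (φ (of i))) := by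
  simp [scAct, scRho, scMove]

theorem scAct_of_inv (φ : FreeGroup (Fin n) →* Γ) (cc : Γ → Γ → A) (i : Fin n) (x : Γ × A) :
    scAct φ cc (of i)⁻¹ x = (x.1 * (φ (of i))⁻¹, x.2 - cc (x.1 * (φ (of i))⁻¹) (φ (of i))) := by
  simp [scAct, scRho, scMove]

end sc

theorem s2_exists_SC (Γ : Type) [Group Γ] [Group.IsFinitelyPresented Γ] :
    ∃ 𝔖 : GenSet Γ, ∀ (A : Type) [AddCommGroup A], SC 𝔖 A := by
  classical
  obtain ⟨n, φ, hφ, T, hT, hker⟩ := (inferInstance : Group.IsFinitelyPresented Γ).out
  -- the length bound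
  obtain ⟨L, hL1, hL⟩ : ∃ L : ℕ, 1 ≤ L ∧ ∀ t ∈ T, FreeGroup.norm t ≤ L := by
    refine ⟨max 1 (hT.toFinset.sup FreeGroup.norm), le_max_left _ _, fun t ht => ?_⟩
    exact le_trans (Finset.le_sup (f := FreeGroup.norm) (hT.mem_toFinset.2 ht)) (le_max_right _ _)
  obtain ⟨𝔖, hmem⟩ : ∃ 𝔖 : GenSet Γ, ∀ s : Γ, s ∈ 𝔖.S ↔ ∃ w, FreeGroup.norm w ≤ L ∧ φ w = s :=
    ⟨scGen φ hφ L hL1, sc_mem_gen φ hφ L hL1⟩
  refine ⟨𝔖, fun A _ c hc => ?_⟩
  -- total extension of the cocycle
  let cc : Γ → Γ → A := fun g s => if h : s ∈ 𝔖.S then c (g, ⟨s, h⟩) else 0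
  have hcc : ∀ g (s : {s : Γ // s ∈ 𝔖.S}), cc g s.1 = c (g, s) := by
    intro g s
    simp only [cc, dif_pos s.2]
  have hcoc : ∀ g s₁ s₂, s₁ ∈ 𝔖.S → s₂ ∈ 𝔖.S → s₁ * s₂ ∈ 𝔖.S → cc g s₁ + cc (g * s₁) s₂ = cc g (s₁ * s₂) := by
    intro g s₁ s₂ h₁ h₂ h₁₂
    have := hc g ⟨s₁, h₁⟩ ⟨s₂, h₂⟩ h₁₂
    rw [← hcc, ← hcc, ← hcc] at this
    exact this
  have hc1 : ∀ g, cc g 1 = 0 := by
    intro g
    have := hcoc g 1 1 𝔖.one_mem 𝔖.one_mem (by rw [mul_one]; exact 𝔖.one_mem)
    rw [mul_one, mul_one] at this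
    exact add_eq_right.mp this
  have hcinv : ∀ g s, s ∈ 𝔖.S → cc g s + cc (g * s) s⁻¹ = 0 := by
    intro g s hs
    have := hcoc g s s⁻¹ hs (𝔖.inv_mem s hs) (by rw [mul_inv_cancel]; exact 𝔖.one_mem)
    rw [mul_inv_cancel, hc1] at this
    exact this
  have hlist : ∀ l : List (Fin n × Bool), l.length ≤ L → φ (mk l) ∈ 𝔖.S := fun l hl =>
    (hmem _).2 ⟨mk l, le_trans norm_mk_le hl, rfl⟩
  -- short words act by the cocycle
  have hshort : ∀ l : List (Fin n × Bool), l.length ≤ L → ∀ x : Γ × A,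
      scAct φ cc (mk l) x = (x.1 * φ (mk l), x.2 + cc x.1 (φ (mk l))) := by
    intro l
    induction l with
    | nil =>
      intro _ x
      have : (mk ([] : List (Fin n × Bool))) = 1 := rfl
      rw [this, scAct_one, _root_.map_one, mul_one, hc1, add_zero]
    | cons a l ih =>
      intro hl x
      have hl' : l.length ≤ L := by
        simp only [List.length_cons] at hl; omega
      have hsplit : mk (a :: l) = mk [a] * mk l := by rw [mul_mk]; rfl
      have ha : φ (mk [a]) ∈ 𝔖.S := hlist [a] (by simpa using hL1)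
      have hone : scAct φ cc (mk [a]) x = (x.1 * φ (mk [a]), x.2 + cc x.1 (φ (mk [a]))) := by
        obtain ⟨i, b⟩ := a
        cases b with
        | true =>
          have : mk [(i, true)] = of i := rfl
          rw [this, scAct_of]
        | false =>
          have : mk [(i, false)] = (of i)⁻¹ := rfl
          rw [this] at ha ⊢
          rw [scAct_of_inv, _root_.map_inv]
          have hs : φ (of i) ∈ 𝔖.S := by
            have := 𝔖.inv_mem _ ha
            rwa [_root_.map_inv, inv_inv] at this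
          have := hcinv (x.1 * (φ (of i))⁻¹) (φ (of i)) hs
          rw [inv_mul_cancel_right] at this
          congr 1
          rw [sub_eq_add_neg]
          congr 1
          exact (eq_neg_of_add_eq_zero_right this).symm
      rw [hsplit, scAct_mul, hone, ih hl', _root_.map_mul]
      have := hcoc x.1 (φ (mk [a])) (φ (mk l)) ha (hlist l hl') (by
        rw [← _root_.map_mul, ← hsplit]; exact hlist _ hl)
      simp only [mul_assoc, add_assoc, this]
  have hshort' : ∀ w : FreeGroup (Fin n), FreeGroup.norm w ≤ L → ∀ x : Γ × A,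
      scAct φ cc w x = (x.1 * φ w, x.2 + cc x.1 (φ w)) := by
    intro w hw x
    have := hshort (toWord w) hw x
    rwa [mk_toWord] at this
  -- the kernel acts trivially
  have hkerρ : φ.ker ≤ (scRho φ cc).ker := by
    rw [← hker]
    refine Subgroup.normalClosure_le_normal ?_
    intro t ht
    have hφt : φ t = 1 := by
      have : t ∈ φ.ker := by rw [← hker]; exact Subgroup.subset_normalClosure ht
      exact this
    have hact : ∀ x, scAct φ cc t x = x := by
      intro x
      rw [hshort' t (hL t ht), hφt, mul_one, hc1, add_zero]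
    show scRho φ cc t = 1
    have : (scRho φ cc t)⁻¹ = 1 := Equiv.ext hact
    exact inv_eq_one.mp this
  have hwd : ∀ w w' : FreeGroup (Fin n), φ w = φ w' → ∀ x, scAct φ cc w x = scAct φ cc w' x := by
    intro w w' h x
    have : w⁻¹ * w' ∈ φ.ker := by
      show φ (w⁻¹ * w') = 1
      rw [_root_.map_mul, _root_.map_inv, h, inv_mul_cancel]
    have h2 : scRho φ cc (w⁻¹ * w') = 1 := hkerρ this
    rw [_root_.map_mul, _root_.map_inv, inv_mul_eq_one] at h2
    simp only [scAct, h2]
  -- first coordinate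
  have hfst : ∀ (w : FreeGroup (Fin n)) (x : Γ × A), (scAct φ cc w x).1 = x.1 * φ w := by
    intro w
    induction w using FreeGroup.induction_on with
    | C1 => intro x; rw [scAct_one, _root_.map_one, mul_one]
    | of i => intro x; rw [scAct_of]
    | inv_of i _ => intro x; rw [scAct_of_inv, _root_.map_inv]
    | mul w₁ w₂ h₁ h₂ => intro x; rw [scAct_mul, h₂, h₁, _root_.map_mul, mul_assoc]
  -- the potential
  let F : Γ → A := fun g => (scAct φ cc (Function.surjInv hφ g) (1, 0)).2
  refine ⟨F, ?_⟩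
  rintro ⟨g, s⟩
  obtain ⟨u, hu, hus⟩ := (hmem s.1).1 s.2
  have hg : φ (Function.surjInv hφ g) = g := Function.surjInv_eq hφ g
  have h1 : scAct φ cc (Function.surjInv hφ g) (1, 0) = (g, F g) := by
    refine Prod.ext ?_ rfl
    rw [hfst, hg, one_mul]
  have h2 : scAct φ cc (Function.surjInv hφ (g * s.1)) (1, 0) = scAct φ cc (Function.surjInv hφ g * u) (1, 0) := by
    refine hwd _ _ ?_ _
    rw [Function.surjInv_eq hφ, _root_.map_mul, hg, hus]
  have h3 : F (g * s.1) = F g + cc g s.1 := by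
    show (scAct φ cc (Function.surjInv hφ (g * s.1)) (1, 0)).2 = _
    rw [h2, scAct_mul, h1, hshort' u hu, hus]
  show c (g, s) = F (g * s.1) - F g
  rw [h3, hcc]
  abel

end Claimed.Agent.R309.S2
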