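import Claimed.Agent.R309.S2.Defs

/-!
# Row 309 / S2 / Tor: a group with a finite free resolution of finite length is torsion free.
PACKAGE S2-Tor (~600 lines, algebra in `ℤ[Γ]`, needs only `Def_0492`).   Proofs: helper135 (prefix `tor_`); no open goal is left in this file.

Plan.  Suppose `c ≠ 1`, `c ^ n = 1`, `n > 0`; replace `n` by `orderOf c ≥ 2`.  `T := single c 1 - 1`, `N := ∑_{i<n} single (c^i) 1`; `T * N = N * T = 0`.
They act on row vectors by `(a • x) j = a * x j`, and `(a • x) ᵥ* D = a • (x ᵥ* D)`.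
FACT (`ℤ[Γ]` is free over `ℤ[⟨c⟩]`, right cosets `⟨c⟩ g`): for `x : ZG Γ`:  `T * x = 0 → ∃ y, x = N * y`;  `N * x = 0 → ∃ y, x = T * y`.
  (Proved here WITHOUT transversals, by induction on the support of `x`:
   first: subtract `N * single g (x g)`;  second: if `x g ≠ 0` there is another point `g' = c^{-i} g` of the support; subtract
   `single g a - single g' a = T * (∑_{j<i} u^j) * single g' a`.)
  The same for vectors, coordinatewise.
`Im k := {x | ∃ u, x = u ᵥ* D k}` (`= Z k` by exactness).   S(k): for `x ∈ Im k`: `T • x = 0 → ∃ y ∈ Im k, x = N • y` and `N • x = 0 → ∃ y ∈ Im k, x = T • y`.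
S(k) is trivial for `k > len`;  S(k+1) → S(k):  `x = u ᵥ* D k`, `T • u ∈ Im (k+1)`, `N • (T • u) = 0`, so `T • u = T • y'`, `y' ∈ Im (k+1)`, `u - y' = N • v` (FACT),
`x = N • (v ᵥ* D k)`.  Same with `T ↔ N`.
End: `x₀` with `aug x₀ = 1`: `T • x₀ ∈ Im 0`, `= T • y`, `y ∈ Im 0`; `x₀ - y = N • v`; augmentation: `1 = n * aug v`, contradiction with `n ≥ 2`.
-/

set_option autoImplicit false

namespace Claimed.Agent.R309.S2

open Claims.C0492 Matrix

/-! ### the abstract dimension shifting -/

/-- from elements to vectors -/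
theorem tor_vec {Λ : Type} [Ring Λ] {a b : Λ} (h : ∀ x : Λ, a * x = 0 → ∃ y, x = b * y) {m : Type}
    (x : m → Λ) (hx : a • x = 0) : ∃ y : m → Λ, x = b • y := by
  choose f hf using h
  refine ⟨fun i => f (x i) (by simpa using congrFun hx i), ?_⟩
  funext i
  exact hf _ _

/-- the statement `S(k)` for the pair `(a, b)` -/
def TorP {Γ : Type} [Group Γ] (R : FiniteFreeResolution Γ) (a b : ZG Γ) (k : ℕ) : Prop :=
  ∀ x : Fin (R.r k) → ZG Γ, (∃ u, x = u ᵥ* R.D k) → a • x = 0 →
    ∃ y : Fin (R.r k) → ZG Γ, (∃ u, y = u ᵥ* R.D k) ∧ x = b • y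

theorem tor_step {Γ : Type} [Group Γ] (R : FiniteFreeResolution Γ) {a b : ZG Γ} (hba : b * a = 0)
    (hA : ∀ x : ZG Γ, a * x = 0 → ∃ y, x = b * y) (k : ℕ) (h : TorP R b a (k + 1)) : TorP R a b k := by
  rintro x ⟨u, rfl⟩ hx
  have h1 : (a • u) ᵥ* R.D k = 0 := by
    rw [Matrix.smul_vecMul]
    exact hx
  have h2 := (R.exact_succ k (a • u)).1 h1
  have h3 : b • (a • u) = 0 := by rw [smul_smul, hba, zero_smul]
  obtain ⟨y', hy', e⟩ := h (a • u) h2 h3
  have h4 : a • (u - y') = 0 := by rw [smul_sub, e, sub_self]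
  obtain ⟨v, hv⟩ := tor_vec hA (u - y') h4
  have h5 : y' ᵥ* R.D k = 0 := (R.exact_succ k y').2 hy'
  refine ⟨v ᵥ* R.D k, ⟨v, rfl⟩, ?_⟩
  rw [← Matrix.smul_vecMul, ← hv, Matrix.sub_vecMul, h5, sub_zero]

theorem tor_top {Γ : Type} [Group Γ] (R : FiniteFreeResolution Γ) (a b : ZG Γ) {k : ℕ} (hk : R.len < k) :
    TorP R a b k := by
  intro x _ _
  have : IsEmpty (Fin (R.r k)) := by
    rw [R.rank_eq_zero k hk]
    infer_instance
  exact ⟨0, ⟨0, by simp⟩, Subsingleton.elim _ _⟩

theorem tor_all {Γ : Type} [Group Γ] (R : FiniteFreeResolution Γ) {a b : ZG Γ} (hab : a * b = 0) (hba : b * a = 0)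
    (hA : ∀ x : ZG Γ, a * x = 0 → ∃ y, x = b * y) (hB : ∀ x : ZG Γ, b * x = 0 → ∃ y, x = a * y) (k : ℕ) :
    TorP R a b k ∧ TorP R b a k := by
  have key : ∀ d k, R.len < k + d → TorP R a b k ∧ TorP R b a k := by
    intro d
    induction d with
    | zero =>
      intro k hk
      exact ⟨tor_top R a b (by omega), tor_top R b a (by omega)⟩
    | succ d ih =>
      intro k hk
      have h := ih (k + 1) (by omega)
      exact ⟨tor_step R hba hA k h.2, tor_step R hab hB k h.1⟩
  exact key (R.len + 1) k (by omega)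

/-! ### the augmentation -/

theorem tor_aug_single {Γ : Type} [Group Γ] (g : Γ) (c : ℤ) : augE 1 (MonoidAlgebra.single g c) = c := by
  unfold augE
  simp [MonoidAlgebra.lift_single]

theorem tor_aug_eq {Γ : Type} [Group Γ] (a : ZG Γ) : groupRingAugmentation a = augE 1 a := by
  unfold groupRingAugmentation
  induction a using MonoidAlgebra.induction_linear with
  | zero => simp
  | add x y hx hy =>
    rw [map_add, ← hx, ← hy, MonoidAlgebra.coeff_add, Finsupp.sum_add_index' (by simp) (by intros; rfl)]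
  | single g c =>
    rw [tor_aug_single, MonoidAlgebra.coeff_single, Finsupp.sum_single_index rfl]

/-! ### induction on the support -/

theorem tor_ind {Γ : Type} [Group Γ] {P : ZG Γ → Prop}
    (h : ∀ x : ZG Γ, (∀ x' : ZG Γ, x'.coeff.support ⊂ x.coeff.support → P x') → P x) (x : ZG Γ) : P x := by
  induction hs : x.coeff.support using Finset.strongInduction generalizing x with
  | H s ih =>
    subst hs
    exact h x fun x' hx' => ih _ hx' x' rfl

/-- a criterion for a smaller support -/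
theorem tor_ssub {Γ : Type} [Group Γ] {x x' : ZG Γ} (g : Γ) (hg : x.coeff g ≠ 0) (hg' : x'.coeff g = 0)
    (h : ∀ k, x.coeff k = 0 → x'.coeff k = 0) : x'.coeff.support ⊂ x.coeff.support := by
  refine (Finset.ssubset_iff_of_subset ?_).2 ⟨g, Finsupp.mem_support_iff.2 hg, ?_⟩
  · intro k hk
    rw [Finsupp.mem_support_iff] at hk ⊢
    exact fun h0 => hk (h k h0)
  · rw [Finsupp.notMem_support_iff]
    exact hg'

/-! ### the two elements -/

section TN

variable {Γ : Type} [Group Γ] (c : Γ)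

/-- `u = c` in the group ring -/
noncomputable def torU : ZG Γ := MonoidAlgebra.single c 1

/-- `T = c - 1` -/
noncomputable def torT : ZG Γ := torU c - 1

/-- partial norm -/
noncomputable def torN (n : ℕ) : ZG Γ := ∑ i ∈ Finset.range n, torU c ^ i

theorem tor_U_pow (i : ℕ) : torU c ^ i = MonoidAlgebra.single (c ^ i) 1 := by
  unfold torU
  rw [MonoidAlgebra.single_pow, one_pow]

theorem tor_T_mul_N (n : ℕ) : torT c * torN c n = torU c ^ n - 1 := mul_geom_sum _ _

theorem tor_N_mul_T (n : ℕ) : torN c n * torT c = torU c ^ n - 1 := geom_sum_mul _ _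

theorem tor_U_pow_order : torU c ^ orderOf c = 1 := by
  rw [tor_U_pow, pow_orderOf_eq_one]
  rfl

theorem tor_U_pow_mul_coeff (i : ℕ) (x : ZG Γ) (h : Γ) : (torU c ^ i * x).coeff h = x.coeff ((c ^ i)⁻¹ * h) := by
  rw [tor_U_pow, MonoidAlgebra.coeff_single_mul_apply, one_mul]

theorem tor_N_mul_coeff (n : ℕ) (x : ZG Γ) (h : Γ) :
    (torN c n * x).coeff h = ∑ i ∈ Finset.range n, x.coeff ((c ^ i)⁻¹ * h) := by
  unfold torN
  rw [Finset.sum_mul, MonoidAlgebra.coeff_sum, Finsupp.finsetSum_apply]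
  exact Finset.sum_congr rfl fun i _ => tor_U_pow_mul_coeff c i x h

theorem tor_aug_U : augE 1 (torU c) = 1 := tor_aug_single c 1

theorem tor_aug_T : augE 1 (torT c) = 0 := by
  unfold torT
  rw [map_sub, tor_aug_U, map_one, sub_self]

theorem tor_aug_N (n : ℕ) : augE 1 (torN c n) = n := by
  unfold torN
  rw [map_sum]
  simp [tor_aug_U]

theorem tor_exists_coeff {x : ZG Γ} (h0 : x ≠ 0) : ∃ g, x.coeff g ≠ 0 := by
  by_contra hcon
  push Not at hcon
  exact h0 (MonoidAlgebra.ext (Finsupp.ext hcon))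

/-- FACT, first half -/
theorem tor_factA (x : ZG Γ) : torT c * x = 0 → ∃ y, x = torN c (orderOf c) * y := by
  classical
  refine tor_ind (P := fun x => torT c * x = 0 → ∃ y, x = torN c (orderOf c) * y) ?_ x
  intro x ih hx
  by_cases h0 : x = 0
  · exact ⟨0, by rw [h0, mul_zero]⟩
  obtain ⟨g, hg⟩ := tor_exists_coeff h0
  have hinv1 : torU c * x = x := by
    have h1 : torT c * x = torU c * x - x := by
      unfold torT
      rw [sub_mul, one_mul]
    rw [h1] at hx
    exact sub_eq_zero.1 hx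
  have hinv : ∀ i : ℕ, torU c ^ i * x = x := by
    intro i
    induction i with
    | zero => simp
    | succ i ih => rw [pow_succ, mul_assoc, hinv1, ih]
  have hco : ∀ (i : ℕ) (h : Γ), x.coeff ((c ^ i)⁻¹ * h) = x.coeff h := by
    intro i h
    rw [← tor_U_pow_mul_coeff, hinv]
  by_cases hn : orderOf c = 0
  · -- infinite order: the support would be infinite
    exfalso
    have hinj : Function.Injective fun i : ℕ => (c ^ i)⁻¹ * g := by
      intro i j hij
      have h1 : c ^ i = c ^ j := by simpa using hij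
      exact injective_pow_iff_not_isOfFinOrder.2 (orderOf_eq_zero_iff.1 hn) h1
    have hsub : Set.range (fun i : ℕ => (c ^ i)⁻¹ * g) ⊆ (x.coeff.support : Set Γ) := by
      rintro _ ⟨i, rfl⟩
      simp only [Finset.mem_coe, Finsupp.mem_support_iff]
      rw [hco]
      exact hg
    exact Set.infinite_range_of_injective hinj (x.coeff.support.finite_toSet.subset hsub)
  have hT : torT c * (x - torN c (orderOf c) * MonoidAlgebra.single g (x.coeff g)) = 0 := by
    rw [mul_sub, hx, ← mul_assoc, tor_T_mul_N, tor_U_pow_order, sub_self, zero_mul, sub_zero]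
  have hNc : ∀ h, (torN c (orderOf c) * MonoidAlgebra.single g (x.coeff g)).coeff h =
      ∑ i ∈ Finset.range (orderOf c), if g = (c ^ i)⁻¹ * h then x.coeff g else 0 := by
    intro h
    rw [tor_N_mul_coeff]
    refine Finset.sum_congr rfl fun i _ => ?_
    rw [MonoidAlgebra.coeff_single, Finsupp.single_apply]
  have hss : (x - torN c (orderOf c) * MonoidAlgebra.single g (x.coeff g)).coeff.support ⊂ x.coeff.support := by
    refine tor_ssub g hg ?_ ?_
    · rw [MonoidAlgebra.coeff_sub, Finsupp.sub_apply, hNc, Finset.sum_eq_single 0]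
      · simp
      · intro i hi hi0
        rw [if_neg]
        intro e
        have h1 : c ^ i = 1 := by
          have h2 : c ^ i * g = g := by
            conv_lhs => rw [e]
            simp
          simpa using h2
        exact pow_ne_one_of_lt_orderOf hi0 (Finset.mem_range.1 hi) h1
      · intro h
        exact absurd (Finset.mem_range.2 (Nat.pos_of_ne_zero hn)) h
    · intro k hk
      rw [MonoidAlgebra.coeff_sub, Finsupp.sub_apply, hk, hNc, Finset.sum_eq_zero, sub_zero]
      intro i _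
      rw [if_neg]
      intro e
      apply hg
      rw [e, hco, hk]
  obtain ⟨y, hy⟩ := ih _ hss hT
  refine ⟨y + MonoidAlgebra.single g (x.coeff g), ?_⟩
  rw [mul_add, ← hy]
  abel

/-- FACT, second half -/
theorem tor_factB (hn : orderOf c ≠ 0) (x : ZG Γ) : torN c (orderOf c) * x = 0 → ∃ y, x = torT c * y := by
  classical
  refine tor_ind (P := fun x => torN c (orderOf c) * x = 0 → ∃ y, x = torT c * y) ?_ x
  intro x ih hx
  by_cases h0 : x = 0
  · exact ⟨0, by rw [h0, mul_zero]⟩
  obtain ⟨g, hg⟩ := tor_exists_coeff h0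
  have hsum := tor_N_mul_coeff c (orderOf c) x g
  rw [hx] at hsum
  obtain ⟨i, hi, hi0, hne⟩ : ∃ i, i < orderOf c ∧ i ≠ 0 ∧ x.coeff ((c ^ i)⁻¹ * g) ≠ 0 := by
    by_contra hcon
    push Not at hcon
    rw [Finset.sum_eq_single 0] at hsum
    · apply hg
      simpa using hsum.symm
    · intro i hi hi0
      exact hcon i (Finset.mem_range.1 hi) hi0
    · intro h
      exact absurd (Finset.mem_range.2 (Nat.pos_of_ne_zero hn)) h
  have hgg' : (c ^ i)⁻¹ * g ≠ g := by
    intro e
    have h1 : c ^ i = 1 := by simpa using e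
    exact pow_ne_one_of_lt_orderOf hi0 hi h1
  have hTz : torT c * (torN c i * MonoidAlgebra.single ((c ^ i)⁻¹ * g) (x.coeff g)) =
      MonoidAlgebra.single g (x.coeff g) - MonoidAlgebra.single ((c ^ i)⁻¹ * g) (x.coeff g) := by
    rw [← mul_assoc, tor_T_mul_N, sub_mul, one_mul, tor_U_pow, MonoidAlgebra.single_mul_single, one_mul,
      mul_inv_cancel_left]
  have hN : torN c (orderOf c) *
      (x - torT c * (torN c i * MonoidAlgebra.single ((c ^ i)⁻¹ * g) (x.coeff g))) = 0 := by
    rw [mul_sub, hx, ← mul_assoc, tor_N_mul_T, tor_U_pow_order, sub_self, zero_mul, sub_zero]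
  have hss : (x - torT c * (torN c i * MonoidAlgebra.single ((c ^ i)⁻¹ * g) (x.coeff g))).coeff.support ⊂
      x.coeff.support := by
    rw [hTz]
    refine tor_ssub g hg ?_ ?_
    · simp only [MonoidAlgebra.coeff_sub, Finsupp.sub_apply, MonoidAlgebra.coeff_single, Finsupp.single_apply]
      rw [if_pos trivial, if_neg hgg']
      ring
    · intro k hk
      simp only [MonoidAlgebra.coeff_sub, Finsupp.sub_apply, MonoidAlgebra.coeff_single, Finsupp.single_apply]
      rw [if_neg, if_neg, hk]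
      · ring
      · intro e
        exact hne (e ▸ hk)
      · intro e
        exact hg (e ▸ hk)
  obtain ⟨y, hy⟩ := ih _ hss hN
  refine ⟨y + torN c i * MonoidAlgebra.single ((c ^ i)⁻¹ * g) (x.coeff g), ?_⟩
  rw [mul_add, ← hy]
  abel

end TN

theorem s2_torsionFree {Γ : Type} [Group Γ] (R : FiniteFreeResolution Γ) :
    ∀ g : Γ, g ≠ 1 → ∀ n : ℕ, 0 < n → g ^ n ≠ 1 := by
  intro c hc n hn hcn
  have hfin : IsOfFinOrder c := isOfFinOrder_iff_pow_eq_one.2 ⟨n, hn, hcn⟩
  have hord : orderOf c ≠ 0 := fun h => (orderOf_eq_zero_iff.1 h) hfin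
  have hord1 : orderOf c ≠ 1 := fun h => hc (orderOf_eq_one_iff.1 h)
  have hTN : torT c * torN c (orderOf c) = 0 := by rw [tor_T_mul_N, tor_U_pow_order, sub_self]
  have hNT : torN c (orderOf c) * torT c = 0 := by rw [tor_N_mul_T, tor_U_pow_order, sub_self]
  have hall := tor_all R hTN hNT (tor_factA c) (tor_factB c hord) 0
  obtain ⟨x₀, hx₀⟩ := R.aug_surjective 1
  have h1 : ∃ u, torT c • x₀ = u ᵥ* R.D 0 := by
    refine (R.exact_zero _).1 ?_
    refine Finset.sum_eq_zero fun i _ => ?_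
    rw [tor_aug_eq, Pi.smul_apply, smul_eq_mul, map_mul, tor_aug_T, zero_mul]
  have h2 : torN c (orderOf c) • (torT c • x₀) = 0 := by rw [smul_smul, hNT, zero_smul]
  obtain ⟨y, hy, e⟩ := hall.2 _ h1 h2
  have h3 : torT c • (x₀ - y) = 0 := by rw [smul_sub, e, sub_self]
  obtain ⟨v, hv⟩ := tor_vec (tor_factA c) (x₀ - y) h3
  have hy0 : ∑ i, groupRingAugmentation (y i) = 0 := (R.exact_zero y).2 hy
  have h4 : (1 : ℤ) = (orderOf c : ℤ) * ∑ i, augE 1 (v i) := by
    have h5 : ∑ i, augE 1 ((x₀ - y) i) = 1 := by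
      simp only [Pi.sub_apply, map_sub, Finset.sum_sub_distrib, ← tor_aug_eq]
      rw [hx₀, hy0, sub_zero]
    rw [← h5, hv, Finset.mul_sum]
    refine Finset.sum_congr rfl fun i _ => ?_
    rw [Pi.smul_apply, smul_eq_mul, map_mul, tor_aug_N]
  have h6 : (orderOf c : ℤ) ∣ 1 := ⟨_, h4⟩
  have h7 := Int.le_of_dvd one_pos h6
  omega

end Claimed.Agent.R309.S2
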