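import Claimed.Agent.R309.S2.Coh
import Claimed.Agent.R309.S2.SC
import Claimed.Agent.R309.S2.Tor
import Claimed.Agent.R309.S2.Easy
import Claimed.Agent.R309.S2.Mod2

/-!
# Row 309 / S2 / Main: the two interfaces `I_easy`, `I_group` of `top_glue` (SORRY FREE glue).   Sub-captain: helper211.
-/

set_option autoImplicit false

namespace Claimed.Agent.R309.S2

open Claims.C0492 Matrix

theorem s2_I_easy (Γ : Type) [Group Γ]
    (hPD : ∀ i : ℕ, i ≠ 4 → Subsingleton (groupCohomology (Rep.leftRegular ℤ Γ) i))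
    (hPD4 : Nonempty (groupCohomology (Rep.leftRegular ℤ Γ) 4 ≃+ ℤ))
    (R : FiniteFreeResolution Γ) : ∀ k : ℕ, k ≠ 1 → k ≠ 2 → k ≠ 3 → l2Betti R k = 0 :=
  s2_easy (s2_pd4 Γ hPD hPD4 R)

theorem s2_I_group (Γ : Type) [Group Γ] [Group.IsFinitelyPresented Γ]
    (hPD : ∀ i : ℕ, i ≠ 4 → Subsingleton (groupCohomology (Rep.leftRegular ℤ Γ) i))
    (hPD4 : Nonempty (groupCohomology (Rep.leftRegular ℤ Γ) 4 ≃+ ℤ))
    (R : FiniteFreeResolution Γ) :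
    ∃ 𝔖 : GenSet Γ, GroupHyp 𝔖 ∧
      ((∀ F : Γ → ℝ, FinEnergy 𝔖 F → InD0 𝔖 F) → l2Betti R 1 = 0 ∧ l2Betti R 3 = 0) := by
  have h := s2_pd4 Γ hPD hPD4 R
  obtain ⟨𝔖, hSC⟩ := s2_exists_SC Γ
  have hA := cay_isPartRes 𝔖 hSC
  have hR := res_isPartRes R
  obtain ⟨c₁⟩ := cmp_exists hA hR
  refine ⟨𝔖, ⟨s2_infinite h, hSC ℝ, hSC (ZMod 2), s2_oneEnded h 𝔖 c₁, s2_torsionFree R, s2_h2c h 𝔖 c₁⟩,
    fun hD0 => ?_⟩
  have hcay := harm_cay 𝔖 (hSC ℝ) hD0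
  constructor
  · obtain ⟨c₂⟩ := cmp_exists hR hA
    exact l2Betti_succ R 0 (harm_transfer c₂ (cay1_mul_cay0 𝔖) hcay)
  · obtain ⟨E, hE⟩ := s2_split h
    obtain ⟨ε, w, hP⟩ := s2_dual h (E 4) (split_four hE)
    have hAε := hA.twist (twE ε) (twE_twE ε)
    rw [augE_comp_twE] at hAε
    obtain ⟨c₃⟩ := cmp_exists hP hAε
    have h3 := harm_transfer c₃ hAε.d1d0 (harm_twist ε hcay)
    exact l2Betti_succ R 2 fun ξ hξ => h3 ξ ((harm_adj (R.D 2) (R.D 3) ξ).2 hξ)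

end Claimed.Agent.R309.S2
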